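import Vale.Agent.P004X.P004G.H253.SX6

/-!
# P004G: the quadratic twists of `y² = x³ + B`
-/

open Finset
open Vale.Agent.P006 (O om N sym Primary isUnit_iff_N N_mul_star N_mul N_pow N_star N_one
  sym_ne_zero sym_periodic star_intCast)
open P004.QN (cop_mul)

namespace P004G
namespace SX

/-- `k* = ± k`, congruent to `1` modulo `4`, for odd `k` -/
def kst (k : ℕ) : ℤ := ZMod.χ₄ (k : ZMod 4) * k

lemma kst_natAbs {k : ℕ} (hk : k % 2 = 1) : (kst k).natAbs = k := by
  unfold kst
  have h : k % 4 = 1 ∨ k % 4 = 3 := by omega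
  rcases h with h | h
  · rw [ZMod.χ₄_nat_one_mod_four h]; simp
  · rw [ZMod.χ₄_nat_three_mod_four h]; simp

lemma kst_mod {k : ℕ} (hk : k % 2 = 1) : kst k % 4 = 1 := by
  unfold kst
  have h : k % 4 = 1 ∨ k % 4 = 3 := by omega
  rcases h with h | h
  · rw [ZMod.χ₄_nat_one_mod_four h]; omega
  · rw [ZMod.χ₄_nat_three_mod_four h]; omega

lemma kst_ne {k : ℕ} (hk : k % 2 = 1) : kst k ≠ 0 := by
  intro h
  have := kst_mod hk
  rw [h] at this
  omega

section twist

variable {B : ℤ} {k : ℕ}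

lemma padic_mul_cube (hB : B ≠ 0) (hk : k % 2 = 1) (q : ℕ) [hq : Fact q.Prime] :
    padicValInt q (B * kst k ^ 3) = padicValInt q B + 3 * padicValNat q k := by
  rw [padicValInt.mul hB (pow_ne_zero 3 (kst_ne hk))]
  congr 1
  unfold padicValInt
  rw [Int.natAbs_pow, kst_natAbs hk, padicValNat.pow]

lemma cop_two_cube (hB : B ≠ 0) (hk : k % 2 = 1) : cop (B * kst k ^ 3) 2 = cop B 2 * kst k ^ 3 := by
  have : Fact (Nat.Prime 2) := ⟨Nat.prime_two⟩
  have h1 : padicValInt 2 (B * kst k ^ 3) = padicValInt 2 B := by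
    rw [padic_mul_cube hB hk 2, padicValNat.eq_zero_of_not_dvd (by omega)]; rfl
  have h2 := cop_mul (B * kst k ^ 3) 2
  have h3 := cop_mul B 2
  rw [h1] at h2
  have h4 : ((2 : ℕ) : ℤ) ^ padicValInt 2 B ≠ 0 := pow_ne_zero _ (by norm_num)
  apply mul_left_cancel₀ h4
  rw [h2, ← mul_assoc, h3]

lemma cop_two_mod (hB : B ≠ 0) (hk : k % 2 = 1) : cop (B * kst k ^ 3) 2 % 4 = cop B 2 % 4 := by
  rw [cop_two_cube hB hk]
  have h3 : kst k ^ 3 % 4 = 1 := by
    have := kst_mod hk
    rw [pow_succ, pow_two, Int.mul_emod, Int.mul_emod (kst k), this]; rfl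
  rw [Int.mul_emod, h3, mul_one, Int.emod_emod_of_dvd _ (dvd_refl 4)]

lemma val_two_cube (hB : B ≠ 0) (hk : k % 2 = 1) :
    padicValInt 2 (B * kst k ^ 3) = padicValInt 2 B := by
  have : Fact (Nat.Prime 2) := ⟨Nat.prime_two⟩
  rw [padic_mul_cube hB hk 2, padicValNat.eq_zero_of_not_dvd (by omega)]; rfl

lemma good2_cube (hB : B ≠ 0) (hk : k % 2 = 1) : good2 (B * kst k ^ 3) ↔ good2 B := by
  unfold good2
  rw [val_two_cube hB hk, cop_two_mod hB hk]

lemma T2_cube (hB : B ≠ 0) (hk : k % 2 = 1) (z : O) : T2 (B * kst k ^ 3) z = T2 B z := by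
  unfold T2 e4
  rw [val_two_cube hB hk, cop_two_mod hB hk]
  by_cases h : good2 B
  · rw [if_pos h, if_pos ((good2_cube hB hk).2 h)]
  · rw [if_neg h, if_neg (fun h1 => h ((good2_cube hB hk).1 h1))]

lemma b2_cube (hB : B ≠ 0) (hk : k % 2 = 1) : b2 (B * kst k ^ 3) = b2 B := by
  unfold b2
  by_cases h : good2 B
  · rw [if_pos h, if_pos ((good2_cube hB hk).2 h)]
  · rw [if_neg h, if_neg (fun h1 => h ((good2_cube hB hk).1 h1))]

lemma odd_of (hk6 : k.Coprime 6) : k % 2 = 1 := by
  have : k.Coprime 2 := hk6.coprime_dvd_right (by norm_num)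
  exact Nat.odd_iff.1 (Nat.coprime_two_right.1 this)

lemma three_of (hk6 : k.Coprime 6) : ¬ 3 ∣ k := by
  have : k.Coprime 3 := hk6.coprime_dvd_right (by norm_num)
  rw [Nat.coprime_comm, Nat.Prime.coprime_iff_not_dvd Nat.prime_three] at this
  exact this

/-- the primes dividing `k` do not divide `B` -/
lemma val_zero (hkB : k.Coprime B.natAbs) {q : ℕ} (hq : q.Prime) (hqk : q ∣ k) :
    padicValInt q B = 0 := by
  apply padicValNat.eq_zero_of_not_dvd
  intro h
  exact hq.one_lt.ne' (Nat.eq_one_of_dvd_coprimes hkB hqk h)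

lemma five_le (hk6 : k.Coprime 6) {q : ℕ} (hq : q.Prime) (hqk : q ∣ k) : 5 ≤ q := by
  have h2 := hq.two_le
  have h3 : q ≠ 2 := by
    rintro rfl
    have := odd_of hk6
    omega
  have h4 : q ≠ 3 := by rintro rfl; exact three_of hk6 hqk
  have h5 : q ≠ 4 := by rintro rfl; exact absurd hq (by norm_num)
  omega

lemma SS_disj (hkB : k.Coprime B.natAbs) : Disjoint (SS B) k.primeFactors := by
  rw [Finset.disjoint_left]
  intro q hq hqk
  rw [Nat.mem_primeFactors] at hqk
  apply (mem_SS hq).2.2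
  rw [val_zero hkB hqk.1 hqk.2.1]
  exact dvd_zero _

lemma val_one (hk : Squarefree k) {q : ℕ} (hq : q.Prime) (hqk : q ∣ k) : padicValNat q k = 1 := by
  have hk0 := hk.ne_zero
  have : Fact q.Prime := ⟨hq⟩
  have h6 := (Nat.squarefree_iff_factorization_le_one hk0).1 hk q
  rw [Nat.factorization_def _ hq] at h6
  have h7 : padicValNat q k ≠ 0 := by
    have := one_le_padicValNat_of_dvd hk0 hqk
    omega
  omega

lemma SS_cube (hB : B ≠ 0) (hk : Squarefree k) (hk6 : k.Coprime 6) (hkB : k.Coprime B.natAbs) :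
    SS (B * kst k ^ 3) = SS B ∪ k.primeFactors := by
  have hk2 := odd_of hk6
  have hBk : B * kst k ^ 3 ≠ 0 := mul_ne_zero hB (pow_ne_zero 3 (kst_ne hk2))
  ext q
  rw [Finset.mem_union]
  constructor
  · intro hq
    have h1 := mem_SS hq
    have : Fact q.Prime := ⟨h1.1⟩
    by_cases hqk : q ∣ k
    · right
      rw [Nat.mem_primeFactors]
      exact ⟨h1.1, hqk, hk.ne_zero⟩
    · left
      have h3 : padicValInt q (B * kst k ^ 3) = padicValInt q B := by
        rw [padic_mul_cube hB hk2 q, padicValNat.eq_zero_of_not_dvd hqk]; rfl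
      rw [h3] at h1
      unfold SS
      rw [Finset.mem_filter, Nat.mem_primeFactors]
      have h5 : padicValInt q B ≠ 0 := fun h => h1.2.2 (by rw [h]; exact dvd_zero _)
      have h6 : q ∣ B.natAbs := by
        by_contra h7
        exact h5 (padicValNat.eq_zero_of_not_dvd h7)
      exact ⟨⟨h1.1, h6, Int.natAbs_ne_zero.2 hB⟩, h1.2⟩
  · intro hq
    rcases hq with hq | hq
    · have h1 := mem_SS hq
      have : Fact q.Prime := ⟨h1.1⟩
      have hqk : ¬ q ∣ k := by
        intro h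
        apply h1.2.2
        rw [val_zero hkB h1.1 h]
        exact dvd_zero _
      have h3 : padicValInt q (B * kst k ^ 3) = padicValInt q B := by
        rw [padic_mul_cube hB hk2 q, padicValNat.eq_zero_of_not_dvd hqk]; rfl
      unfold SS
      rw [Finset.mem_filter, Nat.mem_primeFactors, h3]
      refine ⟨⟨h1.1, ?_, Int.natAbs_ne_zero.2 hBk⟩, h1.2⟩
      unfold SS at hq
      rw [Finset.mem_filter, Nat.mem_primeFactors] at hq
      rw [Int.natAbs_mul]
      exact Dvd.dvd.mul_right hq.1.2.1 _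
    · rw [Nat.mem_primeFactors] at hq
      have : Fact q.Prime := ⟨hq.1⟩
      have h3 : padicValInt q (B * kst k ^ 3) = 3 := by
        rw [padic_mul_cube hB hk2 q, val_one hk hq.1 hq.2.1, val_zero hkB hq.1 hq.2.1]
      unfold SS
      rw [Finset.mem_filter, Nat.mem_primeFactors, h3]
      refine ⟨⟨hq.1, ?_, Int.natAbs_ne_zero.2 hBk⟩, five_le hk6 hq.1 hq.2.1, by norm_num⟩
      rw [Int.natAbs_mul, Int.natAbs_pow, kst_natAbs hk2]
      exact Dvd.dvd.mul_left (hq.2.1.trans (dvd_pow_self k three_ne_zero)) _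

lemma RS_cube (hB : B ≠ 0) (hk : Squarefree k) (hk6 : k.Coprime 6) (hkB : k.Coprime B.natAbs) :
    RS (B * kst k ^ 3) = RS B * k := by
  rw [RS_eq, SS_cube hB hk hk6 hkB, Finset.prod_union (SS_disj hkB), ← RS_eq,
    Nat.prod_primeFactors_of_squarefree hk]

lemma MS_cube (hB : B ≠ 0) (hk : Squarefree k) (hk6 : k.Coprime 6) (hkB : k.Coprime B.natAbs) :
    MS (B * kst k ^ 3) = MS B * k := by
  unfold MS
  rw [RS_cube hB hk hk6 hkB, b2_cube hB (odd_of hk6)]; ring

lemma sx_cube {q : ℕ} (hq : q.Prime) (z : O) :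
    sx q z ^ 3 = ((jacobiSym (N z : ℤ) q : ℤ) : O) := by
  by_cases h : q ∣ N z
  · have h1 := (sx_eq_zero_iff hq z).2 h
    have h2 : jacobiSym (N z : ℤ) q = 0 := by
      rw [jacobiSym.eq_zero_iff]
      refine ⟨hq.ne_zero, ?_⟩
      have h3 : Int.gcd (N z : ℤ) (q : ℤ) = Nat.gcd (N z) q := Int.gcd_natCast_natCast _ _
      rw [h3, Nat.gcd_eq_right h]
      exact hq.one_lt.ne'
    rw [h1, h2]; norm_num
  · have h1 : sx q z ≠ 0 := fun h1 => h ((sx_eq_zero_iff hq z).1 h1)
    unfold sx at h1 ⊢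
    have hs : sym z (q : O) ≠ 0 := right_ne_zero_of_mul h1
    have hs3 : sym z (q : O) ^ 3 = 1 := (Vale.Agent.P006.isVal_sym _ _).cube hs
    rw [mul_pow, hs3, mul_one]
    rcases jacobiSym.trichotomy (N z : ℤ) q with h | h | h <;> rw [h] <;> norm_num

lemma jac_prod (a : ℤ) (s : Finset ℕ) (hs : ∀ q ∈ s, q ≠ 0) :
    jacobiSym a (∏ q ∈ s, q) = ∏ q ∈ s, jacobiSym a q := by
  classical
  induction s using Finset.induction_on with
  | empty => simp
  | insert b s hb ih =>
    rw [Finset.prod_insert hb, Finset.prod_insert hb,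
      jacobiSym.mul_right' _ (hs b (Finset.mem_insert_self b s)) (Finset.prod_ne_zero_iff.2
        (fun q hq => hs q (Finset.mem_insert_of_mem hq))),
      ih (fun q hq => hs q (Finset.mem_insert_of_mem hq))]

lemma X_cube (hB : B ≠ 0) (hk : Squarefree k) (hk6 : k.Coprime 6) (hkB : k.Coprime B.natAbs)
    (z : O) : X (B * kst k ^ 3) z = X B z * ((jacobiSym (N z : ℤ) k : ℤ) : O) := by
  have hk2 := odd_of hk6
  have h3 : padicValInt 3 (B * kst k ^ 3) = padicValInt 3 B := by
    have : Fact (Nat.Prime 3) := ⟨Nat.prime_three⟩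
    rw [padic_mul_cube hB hk2 3, padicValNat.eq_zero_of_not_dvd (three_of hk6)]; rfl
  have ea : ∏ q ∈ SS B, sx q z ^ padicValInt q (B * kst k ^ 3) =
      ∏ q ∈ SS B, sx q z ^ padicValInt q B := by
    apply Finset.prod_congr rfl
    intro q hq
    have h1 := mem_SS hq
    have : Fact q.Prime := ⟨h1.1⟩
    have hqk : ¬ q ∣ k := by
      intro h
      apply h1.2.2
      rw [val_zero hkB h1.1 h]
      exact dvd_zero _
    rw [padic_mul_cube hB hk2 q, padicValNat.eq_zero_of_not_dvd hqk]; rfl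
  have eb : ∏ q ∈ k.primeFactors, sx q z ^ padicValInt q (B * kst k ^ 3) =
      ((jacobiSym (N z : ℤ) k : ℤ) : O) := by
    have h1 : jacobiSym (N z : ℤ) k = ∏ q ∈ k.primeFactors, jacobiSym (N z : ℤ) q := by
      conv_lhs => rw [← Nat.prod_primeFactors_of_squarefree hk]
      exact jac_prod _ _ (fun q hq => (Nat.mem_primeFactors.1 hq).1.ne_zero)
    rw [h1]
    push_cast
    apply Finset.prod_congr rfl
    intro q hq
    rw [Nat.mem_primeFactors] at hq
    have : Fact q.Prime := ⟨hq.1⟩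
    rw [padic_mul_cube hB hk2 q, val_one hk hq.1 hq.2.1, val_zero hkB hq.1 hq.2.1, zero_add,
      mul_one, sx_cube hq.1]
  unfold X
  rw [T2_cube hB hk2, h3, SS_cube hB hk hk6 hkB, Finset.prod_union (SS_disj hkB), ea, eb]
  ring

/-- twisting by `k*` multiplies `Phi` by the quadratic character of the norm -/
theorem Phi_cube (hB : B ≠ 0) (hk : Squarefree k) (hk6 : k.Coprime 6) (hkB : k.Coprime B.natAbs)
    (z : O) : Phi (B * kst k ^ 3) z = Phi B z * ((jacobiSym (N z : ℤ) k : ℤ) : O) := by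
  unfold Phi
  by_cases hz : Vale.Agent.P006.lam ∣ z
  · rw [pu_zero hz]; ring
  · rw [X_cube hB hk hk6 hkB, N_mul, isUnit_iff_N.1 (pu_spec hz).1, one_mul]
    ring

/-- the value at a positive integer -/
theorem Phi_natCast (hk6 : k.Coprime 6) (hkB : k.Coprime B.natAbs) :
    Phi B (k : O) = ((jacobiSym (-3) k : ℤ) : O) := by
  have hodd : Odd k := Nat.odd_iff.2 (odd_of hk6)
  have h3 : jacobiSym (-3) k = jacobiSym k 3 := by
    have := jac_qst (p := k) (q := 3) hodd (by decide)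
    have h4 : P004.QN.qst 3 = -3 := by unfold P004.QN.qst; norm_num
    rw [h4] at this
    simpa using this
  have hc : k.Coprime (b2 B * RS B) := by
    rw [Nat.coprime_mul_iff_right]
    constructor
    · rcases b2_cases B with h | h <;> rw [h]
      · exact Nat.coprime_one_right k
      · exact Nat.coprime_two_right.2 hodd
    · rw [RS_eq, Nat.coprime_prod_right_iff]
      intro q hq
      have h1 := mem_SS hq
      rw [Nat.coprime_comm, Nat.Prime.coprime_iff_not_dvd h1.1]
      intro h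
      apply h1.2.2
      rw [val_zero hkB h1.1 h]
      exact dvd_zero _
  have hm : k % 3 = 1 ∨ k % 3 = 2 := by have := three_of hk6; omega
  rw [h3]
  rcases hm with hm | hm
  · have h5 : jacobiSym (k : ℤ) 3 = 1 := by
      rw [jacobiSym.mod_left' (a₂ := 1) (by omega), jacobiSym.one_left]
    have h6 := Phi_int B (n := (k : ℤ)) (by omega) (by simpa using hc)
    rw [h5]
    push_cast at h6 ⊢
    exact h6
  · have h5 : jacobiSym (k : ℤ) 3 = -1 := by
      rw [jacobiSym.mod_left' (a₂ := -1) (by omega), jacobiSym.at_neg_one (by decide),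
        ZMod.χ₄_nat_three_mod_four rfl]
    have h6 := Phi_int B (n := -(k : ℤ)) (by omega) (by simpa using hc)
    have h7 : (k : O) = (-1) * ((-(k : ℤ) : ℤ) : O) := by push_cast; ring
    rw [h5, h7, Phi_mul, h6, Phi_unit B isUnit_one.neg]
    simp

end twist

end SX
end P004G
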