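import Vale.Agent.P004X.P004G.H253.SW1
import Vale.Agent.P004G.H253.SW2

/-!
# P004G: the finite Fourier transform of the twisted Hecke character
-/

open Finset
open Vale.Agent.P006 (O om N sym Primary isUnit_iff_N N_mul_star N_mul N_pow N_star N_one
  sym_ne_zero sym_periodic star_intCast toC)
open P004 (dft1 dft2 crtMap crtMap_fst crtMap_snd dft2_crt)

namespace P004G
namespace SX

/-- a function on `O` in coordinates -/
noncomputable def fO (c : O → ℂ) (n : ℕ) (x y : ZMod n) : ℂ := c ⟨(x.val : ℤ), (y.val : ℤ)⟩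

lemma fO_int {c : O → ℂ} {n : ℕ} [NeZero n] (hc : ∀ z w, (n : O) ∣ z - w → c z = c w) (x y : ℤ) :
    fO c n (x : ZMod n) (y : ZMod n) = c ⟨x, y⟩ := by
  unfold fO
  apply hc
  have h1 : (n : ℤ) ∣ (((x : ZMod n).val : ℤ) - x) := by
    rw [← ZMod.intCast_zmod_eq_zero_iff_dvd]; simp
  have h2 : (n : ℤ) ∣ (((y : ZMod n).val : ℤ) - y) := by
    rw [← ZMod.intCast_zmod_eq_zero_iff_dvd]; simp
  obtain ⟨s, hs⟩ := h1
  obtain ⟨t, ht⟩ := h2
  refine ⟨⟨s, t⟩, ?_⟩
  apply QuadraticAlgebra.ext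
  · simpa using hs
  · simpa using ht

lemma natCast_dvd_iff {n : ℕ} {z : O} : (n : O) ∣ z ↔ (n : ℤ) ∣ z.re ∧ (n : ℤ) ∣ z.im := by
  constructor
  · rintro ⟨w, rfl⟩
    exact ⟨⟨w.re, by simp⟩, ⟨w.im, by simp⟩⟩
  · rintro ⟨⟨a, ha⟩, ⟨b, hb⟩⟩
    refine ⟨⟨a, b⟩, ?_⟩
    apply QuadraticAlgebra.ext
    · simp [ha]
    · simp [hb]

/-- sums over the residues -/
lemma sum_residues {n : ℕ} [NeZero n] [Fintype (O ⧸ Ideal.span {(n : O)})] (h : O → ℂ)
    (hh : ∀ z w, (n : O) ∣ z - w → h z = h w) :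
    ∑ q : O ⧸ Ideal.span {(n : O)}, h q.out = ∑ x : ZMod n, ∑ y : ZMod n, fO h n x y := by
  classical
  rw [← Fintype.sum_prod_type' (f := fun x y => fO h n x y)]
  symm
  let e : ZMod n × ZMod n → O ⧸ Ideal.span {(n : O)} := fun p =>
    Ideal.Quotient.mk _ (⟨(p.1.val : ℤ), (p.2.val : ℤ)⟩ : O)
  have hinj : Function.Injective e := by
    rintro ⟨a, b⟩ ⟨c, d⟩ h1
    have h2 : (n : O) ∣ (⟨(a.val : ℤ), (b.val : ℤ)⟩ : O) - ⟨(c.val : ℤ), (d.val : ℤ)⟩ := by
      rw [← Ideal.mem_span_singleton, ← Ideal.Quotient.eq]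
      exact h1
    rw [natCast_dvd_iff] at h2
    have h3 : (n : ℤ) ∣ (a.val : ℤ) - c.val := h2.1
    have h4 : (n : ℤ) ∣ (b.val : ℤ) - d.val := h2.2
    rw [← ZMod.intCast_zmod_eq_zero_iff_dvd] at h3 h4
    push_cast at h3 h4
    simp at h3 h4
    rw [Prod.mk.injEq]
    exact ⟨sub_eq_zero.1 h3, sub_eq_zero.1 h4⟩
  have hcard : Fintype.card (ZMod n × ZMod n) = Fintype.card (O ⧸ Ideal.span {(n : O)}) := by
    rw [Fintype.card_prod, ZMod.card, ← Nat.card_eq_fintype_card]
    have := Vale.Agent.P006.card_Rs (n : O)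
    unfold Vale.Agent.P006.Rs at this
    rw [this, Vale.Agent.P006.N_natCast]
    ring
  have hbij : Function.Bijective e := (Fintype.bijective_iff_injective_and_card e).2 ⟨hinj, hcard⟩
  refine Fintype.sum_bijective e hbij _ _ ?_
  rintro ⟨a, b⟩
  unfold fO
  apply hh
  have h1 : (n : O) ∣ (e (a, b)).out - ⟨(a.val : ℤ), (b.val : ℤ)⟩ := by
    rw [← Ideal.mem_span_singleton, ← Ideal.Quotient.eq]
    exact Quotient.out_eq _
  rw [← neg_sub]
  exact (dvd_neg).2 h1

/-- the function `z ↦ e(- Im(z conj w) / n)` in coordinates -/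
lemma char_coord {n : ℕ} [NeZero n] (w : O) (x y : ZMod n) :
    Complex.exp (2 * Real.pi * Complex.I *
      (-(((⟨(x.val : ℤ), (y.val : ℤ)⟩ : O) * star w).im : ℂ)) / n) =
      (ZMod.stdAddChar (x * (w.im : ZMod n)) * ZMod.stdAddChar (y * ((-w.re : ℤ) : ZMod n)) : ℂ) := by
  have h1 : x * (w.im : ZMod n) = (((x.val : ℤ) * w.im : ℤ) : ZMod n) := by push_cast; simp
  have h2 : y * ((-w.re : ℤ) : ZMod n) = (((y.val : ℤ) * (-w.re) : ℤ) : ZMod n) := by
    push_cast; simp
  have h3 : (((⟨(x.val : ℤ), (y.val : ℤ)⟩ : O) * star w).im) =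
      (y.val : ℤ) * w.re - (x.val : ℤ) * w.im := by
    simp
    ring
  rw [h1, h2, ZMod.stdAddChar_coe, ZMod.stdAddChar_coe, ← Complex.exp_add, h3]
  congr 1
  push_cast
  have hn : (n : ℂ) ≠ 0 := by exact_mod_cast NeZero.ne n
  field_simp
  ring

/-- the finite Fourier transform as a two-dimensional transform -/
lemma transform_eq {n : ℕ} [NeZero n] [Fintype (O ⧸ Ideal.span {(n : O)})] (c : O → ℂ)
    (hc : ∀ z w, (n : O) ∣ z - w → c z = c w) (w : O) :
    ∑ q : O ⧸ Ideal.span {(n : O)}, c q.out * Complex.exp (2 * Real.pi * Complex.I *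
      (-((q.out * star w).im : ℂ)) / n) =
      dft2 n (fO c n) (w.im : ZMod n) ((-w.re : ℤ) : ZMod n) := by
  have hn : (n : ℂ) ≠ 0 := by exact_mod_cast NeZero.ne n
  have h1 := sum_residues (n := n) (fun z => c z * Complex.exp (2 * Real.pi * Complex.I *
      (-((z * star w).im : ℂ)) / n)) ?_
  · rw [h1]
    unfold dft2 dft1
    apply sum_congr rfl
    intro x _
    rw [sum_mul]
    apply sum_congr rfl
    intro y _
    unfold fO
    beta_reduce
    rw [char_coord]
    ring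
  · intro z z' hz
    rw [hc z z' hz]
    congr 1
    obtain ⟨t, ht⟩ := hz
    rw [Complex.exp_eq_exp_iff_exists_int]
    refine ⟨-(t * star w).im, ?_⟩
    have h2 : z = z' + (n : O) * t := by rw [← ht]; ring
    have h3 : (z * star w).im = (z' * star w).im + n * (t * star w).im := by
      rw [h2, add_mul, mul_assoc]
      simp
    rw [h3]
    push_cast
    field_simp
    ring

section twist

variable {B : ℤ} {k : ℕ}

/-- the values as complex numbers -/
noncomputable def PhC (B : ℤ) (z : O) : ℂ := toC (Phi B z)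

lemma PhC_cube (hB : B ≠ 0) (hk : Squarefree k) (hk6 : k.Coprime 6) (hkB : k.Coprime B.natAbs)
    (z : O) : PhC (B * kst k ^ 3) z = PhC B z * ((jacobiSym (N z : ℤ) k : ℤ) : ℂ) := by
  unfold PhC
  rw [Phi_cube hB hk hk6 hkB, map_mul, map_intCast]

lemma PhC_natCast (hk6 : k.Coprime 6) (hkB : k.Coprime B.natAbs) :
    PhC B (k : O) = ((jacobiSym (-3) k : ℤ) : ℂ) := by
  unfold PhC
  rw [Phi_natCast hk6 hkB, map_intCast]

lemma PhC_mul (B : ℤ) (z w : O) : PhC B (z * w) = PhC B z * PhC B w := by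
  unfold PhC
  rw [Phi_mul, map_mul]

lemma PhC_congr {z w : O} (h : ((MS B : ℕ) : O) ∣ z - w) : PhC B z = PhC B w := by
  unfold PhC
  rw [Phi_congr' B h]

lemma MS_coprime (hk6 : k.Coprime 6) (hkB : k.Coprime B.natAbs) : (MS B).Coprime k := by
  rw [Nat.coprime_comm]
  have h2 : k.Coprime 2 := hk6.coprime_dvd_right (by norm_num)
  have h3 : k.Coprime 3 := hk6.coprime_dvd_right (by norm_num)
  unfold MS
  apply Nat.Coprime.mul_right
  · apply Nat.Coprime.mul_right
    · have h9 : (9 : ℕ) = 3 ^ 2 := by norm_num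
      rw [h9]
      exact h3.pow_right 2
    · apply Nat.Coprime.pow_right
      rcases b2_cases B with h | h <;> rw [h]
      · exact Nat.coprime_one_right k
      · exact h2
  · rw [RS_eq, Nat.coprime_prod_right_iff]
    intro q hq
    have h1 := mem_SS hq
    rw [Nat.coprime_comm, Nat.Prime.coprime_iff_not_dvd h1.1]
    intro h
    apply h1.2.2
    rw [val_zero hkB h1.1 h]
    exact dvd_zero _

/-- the transform with an arbitrary name for the modulus -/
noncomputable def hatM (B : ℤ) (M : ℕ) [NeZero M] (w : O) : ℂ :=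
  dft2 M (fO (PhC B) M) (w.im : ZMod M) ((-w.re : ℤ) : ZMod M)

lemma hatM_cast (B : ℤ) {M M' : ℕ} (h : M = M') [i : NeZero M] [i' : NeZero M']
    (w : O) : hatM B M w = hatM B M' w := by
  subst h; rfl

lemma hatM_twist [hM : NeZero (MS B)] [hMk : NeZero (MS B * k)]
    (hB : B ≠ 0) (hk : Squarefree k) (hk6 : k.Coprime 6) (hkB : k.Coprime B.natAbs) (w : O) :
    hatM (B * kst k ^ 3) (MS B * k) w =
      ((jacobiSym (-3) k : ℤ) : ℂ) * ((k : ℂ) * ((jacobiSym (N w : ℤ) k : ℤ) : ℂ)) *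
        hatM B (MS B) w := by
  have hk0 : NeZero k := ⟨hk.ne_zero⟩
  have hcop := MS_coprime hk6 hkB
  unfold hatM
  have hc := dft2_crt (MS B) k hcop (fO (PhC (B * kst k ^ 3)) (MS B * k))
    (fun a b => ((jacobiSym (-3) k : ℤ) : ℂ) * fO (PhC B) (MS B) a b) (eta3 k) ?_ w.im (-w.re)
  · rw [hc, dft2_eta3 k hk6 hk]
    have h3 : dft2 (MS B) (fun a b => ((jacobiSym (-3) k : ℤ) : ℂ) * fO (PhC B) (MS B) a b)
        (w.im : ZMod (MS B)) ((-w.re : ℤ) : ZMod (MS B)) = ((jacobiSym (-3) k : ℤ) : ℂ) *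
          dft2 (MS B) (fO (PhC B) (MS B)) (w.im : ZMod (MS B)) ((-w.re : ℤ) : ZMod (MS B)) := by
      unfold dft2 dft1
      rw [Finset.mul_sum]
      apply Finset.sum_congr rfl
      intro a _
      rw [← mul_assoc, Finset.mul_sum]
      congr 1
      apply Finset.sum_congr rfl
      intro b _
      ring
    rw [h3]
    have h5 : w.im ^ 2 + w.im * (-w.re) + (-w.re) ^ 2 = (N w : ℤ) := by
      rw [Vale.Agent.P006.N_cast_int']; ring
    rw [h5]
    ring
  · intro x y
    have hv : fO (PhC (B * kst k ^ 3)) (MS B * k) (crtMap (MS B) k x) (crtMap (MS B) k y) =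
        PhC (B * kst k ^ 3)
          ⟨((crtMap (MS B) k x).val : ℤ), ((crtMap (MS B) k y).val : ℤ)⟩ := rfl
    rw [hv, PhC_cube hB hk hk6 hkB]
    -- the first factor
    have h1 : PhC B ⟨((crtMap (MS B) k x).val : ℤ), ((crtMap (MS B) k y).val : ℤ)⟩ =
        ((jacobiSym (-3) k : ℤ) : ℂ) * fO (PhC B) (MS B) x.1 y.1 := by
      rw [← fO_int (c := PhC B) (n := MS B) (fun z w => PhC_congr), ← PhC_natCast hk6 hkB]
      have e1 : ∀ t : ZMod (MS B) × ZMod k,
          (((crtMap (MS B) k t).val : ℤ) : ZMod (MS B)) = ((k * t.1.val : ℤ) : ZMod (MS B)) := by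
        intro t
        rw [Int.cast_natCast, ← ZMod.cast_eq_val (crtMap (MS B) k t)]
        have := crtMap_fst (MS B) k t
        rw [ZMod.castHom_apply] at this
        rw [this]
        push_cast
        simp
      rw [e1, e1, fO_int (c := PhC B) (n := MS B) (fun z w => PhC_congr)]
      unfold fO
      rw [← PhC_mul]
      congr 1
      apply QuadraticAlgebra.ext <;> simp
    have h2 : ((jacobiSym (N (⟨((crtMap (MS B) k x).val : ℤ), ((crtMap (MS B) k y).val : ℤ)⟩ :
        O) : ℤ) k : ℤ) : ℂ) = eta3 k x.2 y.2 := by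
      rw [← eta3_smul (MS B) hcop x.2 y.2, Vale.Agent.P006.N_cast_int']
      symm
      have e3 := eta3_eq ((MS B : ZMod k) * x.2) ((MS B : ZMod k) * y.2)
        ((crtMap (MS B) k x).val : ℤ) ((crtMap (MS B) k y).val : ℤ) ?_ ?_
      · rw [e3]
        have e4 : ((crtMap (MS B) k x).val : ℤ) ^ 2 - ((crtMap (MS B) k x).val : ℤ) *
            ((crtMap (MS B) k y).val : ℤ) + ((crtMap (MS B) k y).val : ℤ) ^ 2 =
            ((crtMap (MS B) k x).val : ℤ) * ((crtMap (MS B) k x).val : ℤ) -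
              ((crtMap (MS B) k x).val : ℤ) * ((crtMap (MS B) k y).val : ℤ) +
              ((crtMap (MS B) k y).val : ℤ) * ((crtMap (MS B) k y).val : ℤ) := by ring
        rw [e4]
        try rfl
      · have := crtMap_snd (MS B) k x
        rw [ZMod.castHom_apply, ZMod.cast_eq_val] at this
        rw [← this]; simp
      · have := crtMap_snd (MS B) k y
        rw [ZMod.castHom_apply, ZMod.cast_eq_val] at this
        rw [← this]; simp
    rw [h1, h2]

end twist

end SX
end P004G
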