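import Vale.Agent.P004X.P004G.H253.SX5

/-!
# P004G: the conductor of the Hecke character of `y² = x³ + B`
-/

open Finset
open Vale.Agent.P006 (O om N sym Primary isUnit_iff_N N_mul_star N_mul N_pow N_star N_one
  sym_ne_zero sym_periodic recip star_intCast sym_one_right sym_one_left Rs rs)
open P004.QN (qst)

namespace P004G
namespace SX

/-- a modulus for `Phi B` -/
noncomputable def MS (B : ℤ) : ℕ := 9 * b2 B ^ 3 * RS B

lemma RS_ne_zero (B : ℤ) : RS B ≠ 0 := by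
  rw [RS_eq, prod_ne_zero_iff]
  intro q hq
  exact (mem_SS hq).1.ne_zero

lemma b2_ne_zero (B : ℤ) : b2 B ≠ 0 := by
  rcases b2_cases B with h | h <;> rw [h] <;> norm_num

lemma MS_ne_zero (B : ℤ) : MS B ≠ 0 := by
  unfold MS
  exact Nat.mul_ne_zero (Nat.mul_ne_zero (by norm_num) (pow_ne_zero _ (b2_ne_zero B)))
    (RS_ne_zero B)

lemma RS_coprime (B : ℤ) {l : ℕ} (hl : l.Prime) (h5 : l < 5) : (RS B).Coprime l :=
  (prime_coprime_RS hl (Or.inl h5)).symm

lemma crt {a b : O} (h : IsCoprime a b) (x y : O) : ∃ z : O, a ∣ z - x ∧ b ∣ z - y :=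
  Vale.Agent.P006.exists_crt h x y

lemma natCast_coprime {m n : ℕ} (h : m.Coprime n) : IsCoprime (m : O) (n : O) := by
  obtain ⟨a, b, hab⟩ := Nat.isCoprime_iff_coprime.2 h
  refine ⟨(a : O), (b : O), ?_⟩
  have h1 := congrArg (Int.cast : ℤ → O) hab
  push_cast at h1
  exact h1

lemma natCast_dvd {m n : ℕ} (h : m ∣ n) : (m : O) ∣ (n : O) := by
  obtain ⟨c, rfl⟩ := h
  push_cast
  exact dvd_mul_right _ _

/-- coprimality to a rational integer, by the norm -/
lemma coprime_iff_N {z : O} {m : ℕ} : IsCoprime z (m : O) ↔ (N z).Coprime m := by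
  constructor
  · rintro ⟨u, v, huv⟩
    by_contra h
    obtain ⟨l, hl, hl1, hl2⟩ := Nat.Prime.not_coprime_iff_dvd.1 h
    have h6 : u * z = 1 - v * (m : O) := by linear_combination huv
    have h7 : ((N (u * z) : ℕ) : O) = 1 - (m : O) * (v + star v - (m : O) * (v * star v)) := by
      rw [N_mul_star, h6, star_sub, star_mul', star_natCast, star_one]
      ring
    have h8 : ((N (u * z) : ℕ) : O) = 1 - (m : O) *
        (((2 * v.re - v.im : ℤ) : O) - (m : O) * ((N v : ℕ) : O)) := by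
      rw [h7, N_mul_star]
      have h9 := Vale.Agent.P006.trO_eq v
      unfold Vale.Agent.P006.trO at h9
      rw [h9]
    have h9 : ((N (u * z) : ℕ) : ℤ) = 1 - m * ((2 * v.re - v.im) - m * (N v : ℕ)) := by
      apply intCast_inj
      push_cast at h8 ⊢
      exact h8
    rw [N_mul] at h9
    have h10 : (l : ℤ) ∣ ((N u * N z : ℕ) : ℤ) :=
      Int.natCast_dvd_natCast.2 (Dvd.dvd.mul_left hl1 _)
    have h11 : (l : ℤ) ∣ (m : ℤ) := Int.natCast_dvd_natCast.2 hl2
    have h12 : (l : ℤ) ∣ 1 := by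
      have : (1 : ℤ) = ((N u * N z : ℕ) : ℤ) + m * ((2 * v.re - v.im) - m * (N v : ℕ)) := by
        rw [h9]; ring
      rw [this]
      exact dvd_add h10 (Dvd.dvd.mul_right h11 _)
    have h13 : l ∣ 1 := by exact_mod_cast h12
    exact hl.one_lt.ne' (Nat.dvd_one.1 h13)
  · intro h
    apply coprime_of_N
    rw [Vale.Agent.P006.N_natCast]
    exact h.pow_right 2

lemma coprime_MS_iff (B : ℤ) (n : ℕ) : n.Coprime (MS B) ↔ n.Coprime (bad B) := by
  unfold MS bad
  rw [Nat.coprime_mul_iff_right, Nat.coprime_mul_iff_right, Nat.coprime_mul_iff_right,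
    Nat.coprime_mul_iff_right, Nat.coprime_pow_right_iff (by norm_num)]
  have h9 : n.Coprime 9 ↔ n.Coprime 3 := by
    rw [show (9 : ℕ) = 3 ^ 2 by norm_num, Nat.coprime_pow_right_iff (by norm_num)]
  rw [h9]
  tauto

theorem Phi_ne_zero_iff' (B : ℤ) (z : O) : Phi B z ≠ 0 ↔ IsCoprime z (MS B : O) := by
  rw [coprime_iff_N, Phi_ne_zero_iff, coprime_MS_iff]

lemma T2_congr' (B : ℤ) {z w : O} (h : ((b2 B ^ 3 : ℕ) : O) ∣ z - w) : T2 B z = T2 B w := by
  by_cases hg : good2 B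
  · unfold T2
    rw [if_pos hg, if_pos hg]
  · apply T2_congr
    have h1 : b2 B = 2 := by unfold b2; rw [if_neg hg]
    rw [h1] at h
    norm_num at h ⊢
    exact h

theorem X_congr' (B : ℤ) {z w : O} (hz : Primary z) (h : ((MS B : ℕ) : O) ∣ z - w) :
    X B z = X B w := by
  unfold X
  have h8 : ((b2 B ^ 3 : ℕ) : O) ∣ z - w :=
    (natCast_dvd (by unfold MS; exact ⟨9 * RS B, by ring⟩)).trans h
  have h9 : (9 : O) ∣ z - w := by
    have := (natCast_dvd (m := 9) (n := MS B)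
      (by unfold MS; exact ⟨b2 B ^ 3 * RS B, by ring⟩)).trans h
    simpa using this
  rw [T2_congr' B h8, sym_three_congr hz h9]
  congr 1
  apply prod_congr rfl
  intro q hq
  rw [sx_congr (z := z) (w := w)]
  apply (natCast_dvd _).trans h
  unfold MS
  rw [RS_eq]
  exact Dvd.dvd.mul_left (dvd_prod_of_mem _ hq) _

theorem Phi_congr' (B : ℤ) {z w : O} (h : ((MS B : ℕ) : O) ∣ z - w) : Phi B z = Phi B w := by
  have h3 : (3 : O) ∣ z - w := by
    have := (natCast_dvd (m := 3) (n := MS B)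
      (by unfold MS; exact ⟨3 * b2 B ^ 3 * RS B, by ring⟩)).trans h
    simpa using this
  have h5 := pu_congr h3
  unfold Phi
  rw [← h5]
  by_cases hz : Vale.Agent.P006.lam ∣ z
  · rw [pu_zero hz, zero_mul, zero_mul]
  · rw [X_congr' B (w := pu z * w) (pu_spec hz).2]
    rw [← mul_sub]
    exact Dvd.dvd.mul_left h _

/-- `F` is a modulus of the character -/
def PF (B : ℤ) (F : O) : Prop :=
  F ∣ (MS B : O) ∧ ∀ α, Phi B α ≠ 0 → F ∣ α - 1 → Phi B α = 1

lemma PF_M (B : ℤ) : PF B (MS B : O) :=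
  ⟨dvd_rfl, fun α _ h => by rw [Phi_congr' B h, Phi_one]⟩

lemma exists_min (B : ℤ) : ∃ F, PF B F ∧ ∀ F', PF B F' → N F ≤ N F' := by
  classical
  have h : ∃ n : ℕ, ∃ F, PF B F ∧ N F = n := ⟨_, _, PF_M B, rfl⟩
  obtain ⟨F, hF, hn⟩ := Nat.find_spec h
  refine ⟨F, hF, fun F' hF' => ?_⟩
  rw [hn]
  exact Nat.find_min' h ⟨F', hF', rfl⟩

/-- the prime above `3` divides the modulus -/
lemma PF.lam {B : ℤ} {F : O} (h : PF B F) : Vale.Agent.P006.lam ∣ F := by
  by_contra hn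
  have hp := Vale.Agent.P006.prime_lam
  have hc : IsCoprime Vale.Agent.P006.lam F := (Prime.coprime_iff_not_dvd hp).2 hn
  have h9 : IsCoprime (9 : O) F := by
    have h1 : IsCoprime (Vale.Agent.P006.lam ^ 4) F := hc.pow_left
    have h3 : (9 : O) = Vale.Agent.P006.lam ^ 4 * om := by decide
    rw [h3]
    apply IsCoprime.mul_left h1
    exact ⟨om ^ 2, 0, by rw [zero_mul, add_zero]; decide⟩
  set K : ℕ := b2 B ^ 3 * RS B with hK
  have hR : F ∣ (K : O) := by
    have h1 := h.1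
    unfold MS at h1
    have h2 : ((9 * b2 B ^ 3 * RS B : ℕ) : O) = 9 * (K : O) := by rw [hK]; push_cast; ring
    rw [h2] at h1
    exact h9.symm.dvd_of_dvd_mul_left h1
  have h3K : Nat.Coprime 3 K := by
    rw [hK, Nat.coprime_mul_iff_right]
    refine ⟨?_, (RS_coprime B Nat.prime_three (by norm_num)).symm⟩
    apply Nat.Coprime.pow_right
    rcases b2_cases B with h | h <;> rw [h] <;> norm_num
  obtain ⟨u, v, huv⟩ := Nat.isCoprime_iff_coprime.2 h3K
  push_cast at huv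
  -- `n = -1 mod 3`, `n = 1 mod K`
  set n : ℤ := 1 - 2 * (v * K) with hn'
  have hn3 : (-n) % 3 = 1 := by
    have : -n = 3 * (-2 * u) + 1 := by rw [hn']; linear_combination 2 * huv
    omega
  have hcop : (-n).natAbs.Coprime (b2 B * RS B) := by
    have h1 : IsCoprime (-n) (K : ℤ) := ⟨-1, 2 * v, by rw [hn']; ring⟩
    have h2 : (-n).natAbs.Coprime K := Int.isCoprime_iff_gcd_eq_one.1 h1
    rw [hK] at h2
    apply Nat.Coprime.coprime_dvd_right _ h2
    exact Nat.mul_dvd_mul_right (dvd_pow_self _ (by norm_num)) _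
  have hΦ : Phi B ((n : ℤ) : O) = -1 := by
    have h1 : ((n : ℤ) : O) = (-1) * ((-n : ℤ) : O) := by push_cast; ring
    rw [h1, Phi_mul, Phi_int B hn3 hcop, mul_one, Phi_unit B isUnit_one.neg]
    simp
  have h3 := h.2 ((n : ℤ) : O) (by rw [hΦ]; decide) (by
    refine hR.trans ⟨-2 * (v : O), ?_⟩
    rw [hn']
    push_cast
    ring)
  rw [hΦ] at h3
  exact absurd h3 (by decide)

lemma T2_good {B : ℤ} (hg : ¬ good2 B) : ∃ α0 : O, T2 B α0 ≠ 0 ∧ T2 B α0 ≠ 1 := by
  have hb : b2 B = 2 := by unfold b2; rw [if_neg hg]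
  have hne : ∀ z : O, N z % 2 = 1 → T2 B z ≠ 0 := by
    intro z hz h
    rw [T2_eq_zero_iff, hb, Nat.coprime_two_right, Nat.odd_iff] at h
    exact h hz
  have hval : ∀ z : O, T2 B z = ((ZMod.χ₈ (N z : ZMod 8) : ℤ) : O) ^ padicValInt 2 B *
    ((ZMod.χ₄ (N z : ZMod 4) : ℤ) : O) ^ e4 B * sym z 2 ^ (padicValInt 2 B + 2) := by
    intro z; unfold T2; rw [if_neg hg]
  have h2p : Prime (2 : O) := by
    have := prime_natCast Nat.prime_two rfl
    simpa using this
  have h2l : ¬ Vale.Agent.P006.lam ∣ (2 : O) := by decide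
  have hsym : sym om 2 = om := by
    rw [Vale.Agent.P006.sym_prime h2p]
    apply Vale.Agent.P006.symP_unique h2p h2l (Or.inr (Or.inr (Or.inl rfl)))
    have : (N (2 : O) - 1) / 3 = 1 := by decide
    rw [this, pow_one, sub_self]
    exact dvd_zero _
  by_cases h3 : 3 ∣ padicValInt 2 B + 2
  · have hs : ∀ z : O, N z % 2 = 1 → sym z 2 ^ (padicValInt 2 B + 2) = 1 := by
      intro z hz
      obtain ⟨k, hk⟩ := h3
      rw [hk, pow_mul, Vale.Agent.P006.sym_cube, one_pow]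
      apply coprime_of_N
      have : N (2 : O) = 2 ^ 2 := by decide
      rw [this]
      exact (Nat.coprime_two_right.2 (Nat.odd_iff.2 hz)).pow_right 2
    by_cases he : e4 B = 1 ∧ ¬ 2 ∣ padicValInt 2 B
    · refine ⟨⟨3, 1⟩, hne _ (by decide), ?_⟩
      have hN : N (⟨3, 1⟩ : O) = 7 := by decide
      rw [hval, hs _ (by rw [hN]), mul_one, hN, he.1, pow_one]
      have h8 : ZMod.χ₈ ((7 : ℕ) : ZMod 8) = 1 := by decide
      have h4 : ZMod.χ₄ ((7 : ℕ) : ZMod 4) = -1 := by decide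
      rw [h8, h4, Int.cast_one, one_pow, one_mul]
      decide
    · refine ⟨Vale.Agent.P006.lam, hne _ (by decide), ?_⟩
      have hN : N (Vale.Agent.P006.lam : O) = 3 := by decide
      rw [hval, hs _ (by rw [hN]), mul_one, hN]
      have h8 : ZMod.χ₈ ((3 : ℕ) : ZMod 8) = -1 := by decide
      have h4 : ZMod.χ₄ ((3 : ℕ) : ZMod 4) = -1 := by decide
      rw [h8, h4, ← pow_add]
      have hodd : ¬ 2 ∣ padicValInt 2 B + e4 B := by
        unfold good2 at hg
        unfold e4 at he ⊢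
        split_ifs at he ⊢ with h <;> omega
      have h5 : (((-1 : ℤ) : O)) ^ (padicValInt 2 B + e4 B) = -1 := by
        rw [Int.cast_neg, Int.cast_one]
        apply Odd.neg_one_pow
        rw [Nat.odd_iff]
        omega
      rw [h5]
      decide
  · refine ⟨om, hne _ (by decide), ?_⟩
    have hN : N (om : O) = 1 := by decide
    rw [hval, hN, hsym]
    have h8 : ZMod.χ₈ ((1 : ℕ) : ZMod 8) = 1 := by decide
    have h4 : ZMod.χ₄ ((1 : ℕ) : ZMod 4) = 1 := by decide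
    rw [h8, h4, Int.cast_one, one_pow, one_pow, one_mul, one_mul]
    have h5 : (padicValInt 2 B + 2) % 3 = 1 ∨ (padicValInt 2 B + 2) % 3 = 2 := by omega
    have h6 : om ^ (padicValInt 2 B + 2) = om ^ ((padicValInt 2 B + 2) % 3) := by
      apply Vale.Agent.P006.pow_om_congr
      rw [Nat.mod_mod]
    rw [h6]
    rcases h5 with h5 | h5 <;> rw [h5] <;> decide

lemma T2_one (B : ℤ) : T2 B 1 = 1 := by
  have := T2_int B (n := 1) (by simp)
  simpa using this

lemma primary_of_nine {α : O} (h : (9 : O) ∣ α - 1) : Primary α :=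
  Dvd.dvd.trans ⟨3, by norm_num⟩ h

lemma sym_three_one {α : O} (h : (9 : O) ∣ α - 1) : sym 3 α = 1 := by
  rw [sym_three_congr (primary_of_nine h) h, sym_one_right]

lemma sx_one (q : ℕ) : sx q 1 = 1 := by
  unfold sx
  rw [N_one, Nat.cast_one, jacobiSym.one_left, sym_one_left]
  simp

/-- the prime `2` divides the modulus if the reduction is bad -/
lemma PF.two {B : ℤ} {F : O} (h : PF B F) (hg : ¬ good2 B) : (2 : O) ∣ F := by
  by_contra hn
  have hb : b2 B = 2 := by unfold b2; rw [if_neg hg]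
  have hp : Prime (2 : O) := by
    have := prime_natCast Nat.prime_two rfl
    simpa using this
  have hc : IsCoprime (2 : O) F := (Prime.coprime_iff_not_dvd hp).2 hn
  have h8 : IsCoprime (8 : O) F := by
    have h1 : IsCoprime ((2 : O) ^ 3) F := hc.pow_left
    norm_num at h1
    exact h1
  set K : ℕ := 9 * RS B with hK
  have hR : F ∣ (K : O) := by
    have h1 := h.1
    unfold MS at h1
    have h2 : ((9 * b2 B ^ 3 * RS B : ℕ) : O) = 8 * (K : O) := by
      rw [hK, hb]; push_cast; ring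
    rw [h2] at h1
    exact h8.symm.dvd_of_dvd_mul_left h1
  have h8K : Nat.Coprime 8 K := by
    rw [hK, Nat.coprime_mul_iff_right]
    refine ⟨by norm_num, ?_⟩
    have := (RS_coprime B Nat.prime_two (by norm_num)).symm
    have h9 : Nat.Coprime (2 ^ 3) (RS B) := this.pow_left 3
    simpa using h9
  obtain ⟨α0, h1, h3⟩ := T2_good hg
  obtain ⟨α, h5, h6⟩ := crt (natCast_coprime h8K) α0 1
  have h7 : T2 B α = T2 B α0 := by
    apply T2_congr' B
    rw [hb]
    norm_num at h5 ⊢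
    exact h5
  have h9 : (9 : O) ∣ α - 1 := by
    refine Dvd.dvd.trans ?_ h6
    rw [hK]
    push_cast
    exact dvd_mul_right _ _
  have hΦ : Phi B α = T2 B α0 := by
    rw [Phi_prim B (primary_of_nine h9)]
    unfold X
    rw [h7, sym_three_one h9, one_pow, mul_one, prod_eq_one, mul_one]
    intro q hq
    rw [sx_congr (w := 1), sx_one, one_pow]
    refine (natCast_dvd ?_).trans h6
    rw [hK, RS_eq]
    exact Dvd.dvd.mul_left (dvd_prod_of_mem _ hq) 9
  apply h3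
  rw [← hΦ]
  apply h.2 α (by rw [hΦ]; exact h1)
  exact hR.trans h6

/-- the modulus without `q` -/
noncomputable def KS (B : ℤ) (q : ℕ) : ℕ := 9 * b2 B ^ 3 * ∏ l ∈ (SS B).erase q, l

lemma MS_eq {B : ℤ} {q : ℕ} (hq : q ∈ SS B) : MS B = q * KS B q := by
  unfold MS KS
  rw [RS_eq, ← mul_prod_erase _ _ hq]
  ring

lemma KS_coprime {B : ℤ} {q : ℕ} (hq : q ∈ SS B) : q.Coprime (KS B q) := by
  unfold KS
  have h1 := mem_SS hq
  apply Nat.Coprime.mul_right
  · apply Nat.Coprime.mul_right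
    · have h9 : (9 : ℕ) = 3 ^ 2 := by norm_num
      rw [h9]
      apply Nat.Coprime.pow_right
      rw [Nat.coprime_primes h1.1 Nat.prime_three]
      omega
    · apply Nat.Coprime.pow_right
      exact coprime_b2 h1.1 (by omega) B
  · rw [Nat.coprime_prod_right_iff]
    intro l hl
    rw [mem_erase] at hl
    exact (Nat.coprime_primes h1.1 (mem_SS hl.2).1).2 (Ne.symm hl.1)

lemma X_single {B : ℤ} {q : ℕ} (hq : q ∈ SS B) {α : O} (h : (KS B q : O) ∣ α - 1) :
    Phi B α = sx q α ^ padicValInt q B := by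
  have h9 : (9 : O) ∣ α - 1 := by
    have := (natCast_dvd (m := 9) (n := KS B q)
      (by unfold KS; exact ⟨b2 B ^ 3 * ∏ l ∈ (SS B).erase q, l, by ring⟩)).trans h
    simpa using this
  have h8 : ((b2 B ^ 3 : ℕ) : O) ∣ α - 1 :=
    (natCast_dvd (n := KS B q)
      (by unfold KS; exact ⟨9 * ∏ l ∈ (SS B).erase q, l, by ring⟩)).trans h
  rw [Phi_prim B (primary_of_nine h9)]
  unfold X
  rw [T2_congr' B h8, T2_one, sym_three_one h9, one_pow, one_mul, one_mul,
    ← mul_prod_erase _ _ hq, prod_eq_one, mul_one]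
  intro l hl
  rw [sx_congr (w := 1), sx_one, one_pow]
  refine (natCast_dvd ?_).trans h
  unfold KS
  exact Dvd.dvd.mul_left (dvd_prod_of_mem _ hl) _

lemma pow_ne_one_three {x : O} (h3 : x ^ 3 = 1) (h : x ≠ 1) {v : ℕ} (hv : ¬ 3 ∣ v) :
    x ^ v ≠ 1 := by
  intro h1
  have h2 : v % 3 = 1 ∨ v % 3 = 2 := by omega
  rw [← Nat.div_add_mod v 3, pow_add, pow_mul, h3, one_pow, one_mul] at h1
  rcases h2 with h2 | h2 <;> rw [h2] at h1
  · rw [pow_one] at h1; exact h h1
  · apply h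
    calc x = x ^ 2 * x ^ 2 * x * (x ^ 3) ^ 0 * 1 := by
            rw [h1]; ring
      _ = (x ^ 3) * x ^ 2 := by ring
      _ = 1 := by rw [h3, h1, one_mul]

/-- a criterion for a nontrivial value -/
lemma sx_pow_ne {q : ℕ} (hq : q.Prime) {v : ℕ} (hv : ¬ 6 ∣ v) {α : O} (h0 : ¬ q ∣ N α)
    (h : (¬ 3 ∣ v ∧ sym α (q : O) ≠ 1) ∨ (¬ 2 ∣ v ∧ jacobiSym (N α : ℤ) q = -1)) :
    sx q α ^ v ≠ 0 ∧ sx q α ^ v ≠ 1 := by
  have h1 : sx q α ≠ 0 := fun h1 => h0 ((sx_eq_zero_iff hq α).1 h1)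
  refine ⟨pow_ne_zero _ h1, fun h2 => ?_⟩
  have hJ : jacobiSym (N α : ℤ) q ≠ 0 := by
    intro hJ
    apply h1
    unfold sx
    rw [hJ, Int.cast_zero, zero_mul]
  have hJ2 : jacobiSym (N α : ℤ) q ^ 2 = 1 := by
    rcases jacobiSym.trichotomy (N α : ℤ) q with h | h | h
    · exact absurd h hJ
    · rw [h]; norm_num
    · rw [h]; norm_num
  have hs : sym α (q : O) ≠ 0 := by
    intro hs
    apply h1
    unfold sx
    rw [hs, mul_zero]
  have hs3 : sym α (q : O) ^ 3 = 1 := (Vale.Agent.P006.isVal_sym _ _).cube hs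
  rcases h with ⟨h3, h4⟩ | ⟨h3, h4⟩
  · have h5 : sx q α ^ (2 * v) = 1 := by rw [mul_comm, pow_mul, h2, one_pow]
    unfold sx at h5
    rw [mul_pow, pow_mul, ← Int.cast_pow, hJ2, Int.cast_one, one_pow, one_mul] at h5
    exact pow_ne_one_three hs3 h4 (by omega) h5
  · have h5 : sx q α ^ (3 * v) = 1 := by rw [mul_comm, pow_mul, h2, one_pow]
    unfold sx at h5
    rw [mul_pow, pow_mul (sym α (q : O)), hs3, one_pow, mul_one, h4, Int.cast_neg, Int.cast_one,
      Odd.neg_one_pow] at h5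
    · exact absurd h5 (by decide)
    · rw [Nat.odd_iff]; omega

lemma jac_of_not_square {q : ℕ} [hq : Fact q.Prime] {a : ℤ} (h : ¬ IsSquare (a : ZMod q)) :
    jacobiSym a q = -1 := by
  rw [← jacobiSym.legendreSym.to_jacobiSym, legendreSym.eq_neg_one_iff]
  exact h

lemma exists_nonsq {q : ℕ} [hq : Fact q.Prime] (h2 : q ≠ 2) :
    ∃ a : ℤ, ¬ IsSquare (a : ZMod q) := by
  obtain ⟨a, ha⟩ := FiniteField.exists_nonsquare (F := ZMod q) (by
    rw [ZMod.ringChar_zmod_n]; exact h2)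
  refine ⟨(a.val : ℤ), ?_⟩
  simpa using ha

/-- a non-residue represented by the norm form -/
lemma exists_norm_nonsq {q : ℕ} [hq : Fact q.Prime] (h5 : 5 ≤ q) :
    ∃ β : O, ¬ IsSquare (((N β : ℤ)) : ZMod q) := by
  by_contra hcon
  push Not at hcon
  have h1 : ∀ x : ZMod q, IsSquare (x ^ 2 + 3) := by
    intro x
    have h2 := hcon ⟨x.val + 1, 2⟩
    rw [Vale.Agent.P006.N_cast_int'] at h2
    push_cast at h2
    rw [ZMod.natCast_val, ZMod.cast_id] at h2
    have h3 : (x + 1) * (x + 1) - (x + 1) * 2 + 4 = x ^ 2 + 3 := by ring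
    rw [h3] at h2
    exact h2
  have h3 : ∀ n : ℕ, IsSquare ((3 * n : ℕ) : ZMod q) := by
    intro n
    induction n with
    | zero => exact ⟨0, by simp⟩
    | succ n ih =>
      obtain ⟨x, hx⟩ := ih
      have h4 := h1 x
      have h6 : ((3 * (n + 1) : ℕ) : ZMod q) = x ^ 2 + 3 := by
        rw [mul_add, mul_one, Nat.cast_add, hx]
        push_cast
        ring
      rw [h6]
      exact h4
  obtain ⟨a, ha⟩ := FiniteField.exists_nonsquare (F := ZMod q) (by
    rw [ZMod.ringChar_zmod_n]; omega)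
  have h30 : (3 : ZMod q) ≠ 0 := by
    intro h
    have h6 : ((3 : ℕ) : ZMod q) = 0 := by exact_mod_cast h
    rw [ZMod.natCast_eq_zero_iff] at h6
    have := Nat.le_of_dvd (by norm_num) h6
    omega
  apply ha
  have h6 := h3 (a / 3).val
  rw [Nat.cast_mul, ZMod.natCast_val, ZMod.cast_id] at h6
  have h7 : ((3 : ℕ) : ZMod q) * (a / 3) = a := by
    push_cast
    field_simp
  rw [h7] at h6
  exact h6

lemma jac_N_congr {q : ℕ} {z w : O} (h : (q : O) ∣ z - w) :
    jacobiSym (N z : ℤ) q = jacobiSym (N w : ℤ) q := by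
  have h1 : ((q : ℤ) : O) ∣ z - w := by rw [Int.cast_natCast]; exact h
  exact jacobiSym.mod_left'
    (Int.emod_eq_emod_iff_emod_sub_eq_zero.2 (Int.emod_eq_zero_of_dvd (N_congr h1)))

/-- inert primes: nontrivial values -/
lemma exists_inert {q : ℕ} (hq : q.Prime) (h5 : 5 ≤ q) (h3 : q % 3 = 2) {v : ℕ} (hv : ¬ 6 ∣ v) :
    ∃ β, sx q β ^ v ≠ 0 ∧ sx q β ^ v ≠ 1 := by
  have : Fact q.Prime := ⟨hq⟩
  have hπ := prime_natCast hq h3
  have hl : ¬ Vale.Agent.P006.lam ∣ (q : O) := by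
    intro h
    have h1 := Vale.Agent.P006.N_dvd_N h
    rw [Vale.Agent.P006.N_lam, Vale.Agent.P006.N_natCast] at h1
    have h2 := Nat.prime_three.dvd_of_dvd_pow h1
    omega
  by_cases h : 3 ∣ v
  · obtain ⟨β, hβ⟩ := exists_norm_nonsq (q := q) h5
    refine ⟨β, sx_pow_ne hq hv ?_ (Or.inr ⟨by omega, jac_of_not_square hβ⟩)⟩
    intro h1
    apply hβ
    have h2 : ((N β : ℤ) : ZMod q) = 0 := by
      rw [ZMod.intCast_zmod_eq_zero_iff_dvd]
      exact_mod_cast h1
    rw [h2]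
    exact ⟨0, by simp⟩
  · obtain ⟨β, h1, h2⟩ := Vale.Agent.P006.exists_sym_ne_one hπ hl
    refine ⟨β, sx_pow_ne hq hv ?_ (Or.inl ⟨h, h2⟩)⟩
    rw [coprime_iff_N] at h1
    intro h4
    exact hq.one_lt.ne' (Nat.eq_one_of_dvd_coprimes h1 h4 dvd_rfl)

lemma q_dvd_of {q : ℕ} (hq : q.Prime) {ϖ : O} (hN : N ϖ = q) {n : ℤ} (h : ϖ ∣ (n : O)) :
    (q : ℤ) ∣ n := by
  have h1 := Vale.Agent.P006.N_dvd_N h
  rw [hN, Vale.Agent.P006.N_intCast] at h1
  exact Int.natCast_dvd.2 (hq.dvd_of_dvd_pow h1)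

/-- split primes: nontrivial values -/
lemma exists_split {q : ℕ} (hq : q.Prime) (h5 : 5 ≤ q) {ϖ : O} (hN : N ϖ = q) (hP : Primary ϖ)
    {v : ℕ} (hv : ¬ 6 ∣ v) :
    ∃ β : O, ∀ α, ϖ ∣ α - β → star ϖ ∣ α - 1 → sx q α ^ v ≠ 0 ∧ sx q α ^ v ≠ 1 := by
  have : Fact q.Prime := ⟨hq⟩
  have hπ : Prime ϖ := Vale.Agent.P006.prime_of_N_prime (by rw [hN]; exact hq)
  have hl := hP.not_lam_dvd
  have hqq : (q : O) = ϖ * star ϖ := by rw [← hN, N_mul_star]
  have hNα : ∀ α β : O, ϖ ∣ α - β → star ϖ ∣ α - 1 → ϖ ∣ ((N α : ℕ) : O) - β := by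
    intro α β h1 h2
    have h3 : ϖ ∣ star α - 1 := by
      have h4 := Vale.Agent.P006.star_dvd_iff.1 h2
      rwa [star_sub, star_one] at h4
    rw [N_mul_star]
    have h4 : α * star α - β = (α - β) * star α + β * (star α - 1) := by ring
    rw [h4]
    exact dvd_add (Dvd.dvd.mul_right h1 _) (Dvd.dvd.mul_left h3 _)
  have hndvd : ∀ α β : O, ϖ ∣ α - β → star ϖ ∣ α - 1 → ¬ ϖ ∣ β → ¬ q ∣ N α := by
    intro α β h1 h2 h3 h4
    apply h3
    have h6 := hNα α β h1 h2
    have h7 : ϖ ∣ ((N α : ℕ) : O) := by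
      refine Dvd.dvd.trans ?_ (natCast_dvd h4)
      rw [hqq]; exact dvd_mul_right _ _
    have h8 : β = ((N α : ℕ) : O) - (((N α : ℕ) : O) - β) := by ring
    rw [h8]
    exact dvd_sub h7 h6
  by_cases h : 3 ∣ v
  · obtain ⟨a, ha⟩ := exists_nonsq (q := q) (by omega)
    refine ⟨(a : O), fun α h1 h2 => ?_⟩
    have h3 : (q : ℤ) ∣ (N α : ℤ) - a := by
      apply q_dvd_of hq hN
      have := hNα α _ h1 h2
      push_cast
      exact this
    have h4 : ((N α : ℤ) : ZMod q) = (a : ZMod q) := by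
      have := (ZMod.intCast_zmod_eq_zero_iff_dvd _ q).2 h3
      push_cast at this ⊢
      exact sub_eq_zero.1 this
    apply sx_pow_ne hq hv _ (Or.inr ⟨by omega, jac_of_not_square (by rw [h4]; exact ha)⟩)
    apply hndvd α _ h1 h2
    intro h6
    have h7 := q_dvd_of hq hN h6
    apply ha
    have h8 := (ZMod.intCast_zmod_eq_zero_iff_dvd a q).2 h7
    rw [h8]
    exact ⟨0, by simp⟩
  · obtain ⟨β, h1, h2⟩ := Vale.Agent.P006.exists_sym_ne_one hπ hl
    have h1' : ¬ ϖ ∣ β := fun h => hπ.not_isUnit (h1.isUnit_of_dvd' h dvd_rfl)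
    refine ⟨β, fun α h3 h4 => ?_⟩
    apply sx_pow_ne hq hv (hndvd α β h3 h4 h1') (Or.inl ⟨h, ?_⟩)
    rw [hqq, Vale.Agent.P006.sym_mul_right _ hπ.ne_zero hP.star.ne_zero, sym_periodic h3,
      sym_periodic h4, sym_one_left, mul_one]
    exact h2

lemma PF.key {B : ℤ} {F : O} (h : PF B F) {q : ℕ} (hq : q ∈ SS B) {ϖ ρ : O}
    (hϖ : Prime ϖ) (hqq : (q : O) = ϖ * ρ) (hc : IsCoprime ϖ (ρ * (KS B q : O)))
    {β : O} (hβ : ∀ α, ϖ ∣ α - β → ρ ∣ α - 1 →
      sx q α ^ padicValInt q B ≠ 0 ∧ sx q α ^ padicValInt q B ≠ 1) : ϖ ∣ F := by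
  by_contra hn
  have hcF : IsCoprime ϖ F := (Prime.coprime_iff_not_dvd hϖ).2 hn
  obtain ⟨α, h5, h6⟩ := crt hc β 1
  have h7 := hβ α h5 ((dvd_mul_right _ _).trans h6)
  rw [← X_single hq ((dvd_mul_left _ _).trans h6)] at h7
  apply h7.2
  apply h.2 α h7.1
  have h13 : F ∣ ϖ * (ρ * (KS B q : O)) := by
    have h14 := h.1
    rw [MS_eq hq] at h14
    push_cast at h14
    rw [hqq, mul_assoc] at h14
    exact h14
  exact (hcF.symm.dvd_of_dvd_mul_left h13).trans h6

/-- split primes divide the modulus -/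
lemma PF.one {B : ℤ} {F : O} (h : PF B F) {q : ℕ} (hq : q ∈ SS B)
    {ϖ : O} (hN : N ϖ = q) (hP : Primary ϖ) : ϖ ∣ F := by
  obtain ⟨hqp, h5, hv⟩ := mem_SS hq
  have hπ : Prime ϖ := Vale.Agent.P006.prime_of_N_prime (by rw [hN]; exact hqp)
  have hqq : (q : O) = ϖ * star ϖ := by rw [← hN, N_mul_star]
  have hc1 : IsCoprime ϖ (star ϖ) := by
    rw [Prime.coprime_iff_not_dvd hπ]
    intro h1
    exact Vale.Agent.P006.ne_star_of_N_prime hqp hN (eq_of_dvd hP hP.star (N_star ϖ).symm h1)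
  have hc2 : IsCoprime ϖ (KS B q : O) := by
    have h1 := natCast_coprime (KS_coprime hq)
    rw [hqq] at h1
    exact h1.of_mul_left_left
  obtain ⟨β, hβ⟩ := exists_split hqp h5 hN hP hv
  exact h.key hq hπ hqq (hc1.mul_right hc2) hβ

/-- inert primes divide the modulus -/
lemma PF.inert {B : ℤ} {F : O} (h : PF B F) {q : ℕ} (hq : q ∈ SS B)
    (h3 : q % 3 = 2) : (q : O) ∣ F := by
  obtain ⟨hqp, h5, hv⟩ := mem_SS hq
  obtain ⟨β, hβ⟩ := exists_inert hqp h5 h3 hv
  refine h.key hq (ρ := 1) (prime_natCast hqp h3) (mul_one _).symm ?_ (β := β) ?_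
  · rw [one_mul]; exact natCast_coprime (KS_coprime hq)
  · intro α h1 _
    rw [sx_congr h1]
    exact hβ

lemma SS_mod {B : ℤ} {q : ℕ} (hq : q ∈ SS B) : q % 3 = 1 ∨ q % 3 = 2 := by
  obtain ⟨hqp, h5, -⟩ := mem_SS hq
  have : ¬ 3 ∣ q := by
    rw [Nat.prime_dvd_prime_iff_eq Nat.prime_three hqp]
    omega
  omega

lemma PF.q_dvd {B : ℤ} {F : O} (h : PF B F) {q : ℕ} (hq : q ∈ SS B) : (q : O) ∣ F := by
  obtain ⟨hqp, h5, hv⟩ := mem_SS hq
  rcases SS_mod hq with h4 | h4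
  · obtain ⟨ϖ, hN, hP⟩ := exists_pi hqp h4
    have h1 := h.one hq hN hP
    have h3 := h.one hq ((N_star ϖ).trans hN) hP.star
    have hqq : (q : O) = ϖ * star ϖ := by rw [← hN, N_mul_star]
    rw [hqq]
    apply IsCoprime.mul_dvd _ h1 h3
    rw [Prime.coprime_iff_not_dvd (Vale.Agent.P006.prime_of_N_prime (by rw [hN]; exact hqp))]
    intro h1
    exact Vale.Agent.P006.ne_star_of_N_prime hqp hN (eq_of_dvd hP hP.star (N_star ϖ).symm h1)
  · exact h.inert hq h4

lemma PF.RS_dvd {B : ℤ} {F : O} (h : PF B F) : (RS B : O) ∣ F := by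
  rw [RS_eq]
  push_cast
  apply Finset.prod_dvd_of_coprime
  · intro a ha b hb hab
    exact natCast_coprime ((Nat.coprime_primes (mem_SS ha).1 (mem_SS hb).1).2 hab)
  · intro q hq
    exact h.q_dvd hq

lemma PF.prime_dvd {B : ℤ} {F : O} (h : PF B F) {ϖ : O} (hp : Prime ϖ)
    (hd : ϖ ∣ (MS B : O)) : ϖ ∣ F := by
  unfold MS at hd
  push_cast at hd
  rcases hp.dvd_or_dvd hd with h1 | h1
  · rcases hp.dvd_or_dvd h1 with h2 | h2
    · have h3 : (9 : O) = Vale.Agent.P006.lam ^ 4 * om := by decide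
      rw [h3] at h2
      rcases hp.dvd_or_dvd h2 with h5 | h5
      · exact (hp.dvd_of_dvd_pow h5).trans h.lam
      · exfalso
        exact hp.not_isUnit (isUnit_of_dvd_unit h5 Vale.Agent.P006.isUnit_om)
    · have h3 := hp.dvd_of_dvd_pow h2
      by_cases hg : good2 B
      · exfalso
        have h4 : b2 B = 1 := by unfold b2; rw [if_pos hg]
        rw [h4, Nat.cast_one] at h3
        exact hp.not_isUnit (isUnit_of_dvd_one h3)
      · have h4 : b2 B = 2 := by unfold b2; rw [if_neg hg]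
        rw [h4] at h3
        have h6 := h.two hg
        refine Dvd.dvd.trans ?_ h6
        simpa using h3
  · exact h1.trans h.RS_dvd

/-- The conductor `F` (with cofactor `G`): `Phi B` is periodic modulo `F`, and for each prime
divisor `π` of `F` it is not constant on the units congruent to `1` modulo `F / π`. -/
theorem exists_FG (B : ℤ) : ∃ F G : O, F * G = (MS B : O) ∧
    (RS B : O) ∣ F ∧ (∀ z w, F ∣ z - w → Phi B z = Phi B w) ∧
    ∀ ϖ : O, Prime ϖ → ϖ ∣ (MS B : O) →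
      ∃ α, Phi B α ≠ 0 ∧ Phi B α ≠ 1 ∧ (MS B : O) ∣ (α - 1) * (G * ϖ) := by
  obtain ⟨F, hF, hmin⟩ := exists_min B
  obtain ⟨G, hG⟩ := hF.1
  have hM0 : (MS B : O) ≠ 0 := by exact_mod_cast MS_ne_zero B
  have hF0 : F ≠ 0 := by
    rintro rfl
    rw [zero_mul] at hG
    exact hM0 hG
  refine ⟨F, G, hG.symm, hF.RS_dvd, ?_, ?_⟩
  · -- periodicity
    have key : ∀ z w, F ∣ z - w → Phi B z ≠ 0 → Phi B w = Phi B z := by
      intro z w h hz
      have hzc := (Phi_ne_zero_iff' B z).1 hz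
      have hwc : IsCoprime w (MS B : O) := by
        apply isCoprime_of_prime_dvd
        · rintro ⟨-, h0⟩
          exact hM0 h0
        · intro ϖ hp h1 h3
          have h5 : ϖ ∣ z - w := (hF.prime_dvd hp h3).trans h
          have h6 : ϖ ∣ z := by
            have := dvd_add h5 h1
            rwa [sub_add_cancel] at this
          exact hp.not_isUnit (hzc.isUnit_of_dvd' h6 h3)
      have hw := (Phi_ne_zero_iff' B w).2 hwc
      obtain ⟨β, γ, hβ⟩ := hzc
      have h1 : Phi B β * Phi B z = 1 := by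
        rw [← Phi_mul, ← Phi_one B]
        apply Phi_congr'
        exact ⟨-γ, by linear_combination hβ⟩
      have h3 : Phi B (β * w) = 1 := by
        apply hF.2
        · rw [Phi_mul]
          exact mul_ne_zero (left_ne_zero_of_mul_eq_one h1) hw
        · obtain ⟨t, ht⟩ := h
          exact ⟨-β * t - G * γ, by linear_combination hβ - β * ht - γ * hG⟩
      rw [Phi_mul] at h3
      exact mul_left_cancel₀ (left_ne_zero_of_mul_eq_one h1) (by rw [h1, h3])
    intro z w h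
    by_cases hz : Phi B z = 0
    · by_cases hw : Phi B w = 0
      · rw [hz, hw]
      · exact key w z (by rw [← neg_sub]; exact (dvd_neg).2 h) hw
    · exact (key z w h hz).symm
  · intro ϖ hp hd
    obtain ⟨F', hF'⟩ := hF.prime_dvd hp hd
    have h1 : ¬ PF B F' := by
      intro h1
      have h3 := hmin F' h1
      rw [hF', N_mul] at h3
      have h5 : 0 < N F' := by
        apply Vale.Agent.P006.N_pos
        rintro rfl
        exact hF0 (by rw [hF', mul_zero])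
      have h6 : 1 < N ϖ := by
        have h7 := Vale.Agent.P006.N_pos hp.ne_zero
        have h8 : N ϖ ≠ 1 := fun h8 => hp.not_isUnit (isUnit_iff_N.2 h8)
        omega
      nlinarith
    unfold PF at h1
    push Not at h1
    obtain ⟨α, h3, h5, h6⟩ := h1 (Dvd.dvd.trans ⟨ϖ, by rw [hF']; ring⟩ hF.1)
    refine ⟨α, h3, h6, ?_⟩
    obtain ⟨t, ht⟩ := h5
    exact ⟨t, by rw [hG, ht, hF']; ring⟩

end SX
end P004G
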