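import Vale.Agent.P004X.P004G.H253.SW3
import Vale.Agent.P004X.P004G.H253.SW4
import Vale.Agent.P004X.P004G.H253.SM
import Vale.Agent.P004X.P004G.H394.Gs6

/-!
# P004G: the root numbers of the twists of `y² = x³ + B`
-/

open Finset
open Vale.Agent.P006 (O om N sym Primary isUnit_iff_N N_mul_star N_mul N_pow N_star N_one
  sym_ne_zero sym_periodic star_intCast toC)

namespace P004G
namespace SX

open Vale.Agent
open ML

/-- minimal moduli -/
def PFm (B : ℤ) (F : O) : Prop := PF B F ∧ ∀ F', PF B F' → N F ≤ N F'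

variable {B : ℤ} {F G : O} {k : ℕ}

lemma PFm.hk (h : PFm B F) (hG : (MS B : O) = F * G) : Gs.Hk (MS B) F G (Phi B) := by
  obtain ⟨hF, hmin⟩ := h
  have hM0 : (MS B : O) ≠ 0 := by exact_mod_cast MS_ne_zero B
  have hF0 : F ≠ 0 := by
    rintro rfl
    rw [zero_mul] at hG
    exact hM0 hG
  refine ⟨SX.MS_ne_zero B, SX.Phi_one B, SX.Phi_mul B, fun u hu => SX.Phi_unit B hu,
    SX.Phi_star B, SX.Phi_val B, ?_, hG.symm, ?_, fun z hz => (SX.Phi_ne_zero_iff' B z).1 hz,
    ?_⟩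
  · by_contra h
    rw [← Ne, SX.Phi_ne_zero_iff, Vale.Agent.P006.N_lam] at h
    unfold SX.bad at h
    rw [Nat.coprime_mul_iff_right] at h
    exact absurd h.1 (by norm_num)
  · -- periodicity
    have key : ∀ z w, F ∣ z - w → Phi B z ≠ 0 → Phi B w = Phi B z := by
      intro z w h hz
      have hzc := (Phi_ne_zero_iff' B z).1 hz
      have hwc : IsCoprime w (MS B : O) := by
        apply isCoprime_of_prime_dvd
        · rintro ⟨-, h0⟩
          exact hM0 h0
        · intro ϖ hp h1 h3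
          have h5 : ϖ ∣ z - w := (hF.prime_dvd hp h3).trans h
          have h6 : ϖ ∣ z := by
            have := dvd_add h5 h1
            rwa [sub_add_cancel] at this
          exact hp.not_isUnit (hzc.isUnit_of_dvd' h6 h3)
      have hw := (Phi_ne_zero_iff' B w).2 hwc
      obtain ⟨β, γ, hβ⟩ := hzc
      have h1 : Phi B β * Phi B z = 1 := by
        rw [← Phi_mul, ← Phi_one B]
        apply Phi_congr'
        exact ⟨-γ, by linear_combination hβ⟩
      have h3 : Phi B (β * w) = 1 := by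
        apply hF.2
        · rw [Phi_mul]
          exact mul_ne_zero (left_ne_zero_of_mul_eq_one h1) hw
        · obtain ⟨t, ht⟩ := h
          exact ⟨-β * t - G * γ, by linear_combination hβ - β * ht - γ * hG⟩
      rw [Phi_mul] at h3
      exact mul_left_cancel₀ (left_ne_zero_of_mul_eq_one h1) (by rw [h1, h3])
    intro z w h
    by_cases hz : Phi B z = 0
    · by_cases hw : Phi B w = 0
      · rw [hz, hw]
      · exact key w z (by rw [← neg_sub]; exact (dvd_neg).2 h) hw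
    · exact (key z w h hz).symm
  · intro ϖ hp hd
    obtain ⟨F', hF'⟩ := hF.prime_dvd hp hd
    have h1 : ¬ PF B F' := by
      intro h1
      have h3 := hmin F' h1
      rw [hF', N_mul] at h3
      have h5 : 0 < N F' := by
        apply Vale.Agent.P006.N_pos
        rintro rfl
        exact hF0 (by rw [hF', mul_zero])
      have h6 : 1 < N ϖ := by
        have h7 := Vale.Agent.P006.N_pos hp.ne_zero
        have h8 : N ϖ ≠ 1 := fun h8 => hp.not_isUnit (isUnit_iff_N.2 h8)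
        omega
      nlinarith
    unfold PF at h1
    push Not at h1
    obtain ⟨α, h3, h5, h6⟩ := h1 (Dvd.dvd.trans ⟨ϖ, by rw [hF']; ring⟩ hF.1)
    refine ⟨α, h3, h6, ?_⟩
    obtain ⟨t, ht⟩ := h5
    exact ⟨t, by rw [hG, ht, hF']; ring⟩

lemma jac_one_of {z : O} (h : (k : O) ∣ z - 1) : jacobiSym (N z : ℤ) k = 1 := by
  rw [jac_N_congr h, N_one]
  simp

lemma PFm.cube (h : PFm B F) (hB : B ≠ 0) (hk : Squarefree k) (hk6 : k.Coprime 6)
    (hkB : k.Coprime B.natAbs) : PFm (B * kst k ^ 3) (F * (k : O)) := by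
  have hM := MS_cube hB hk hk6 hkB
  have hk0 : (k : O) ≠ 0 := by exact_mod_cast hk.ne_zero
  have hcop : IsCoprime (MS B : O) (k : O) := natCast_coprime (MS_coprime hk6 hkB)
  constructor
  · constructor
    · rw [hM, Nat.cast_mul]
      exact mul_dvd_mul_right h.1.1 _
    · intro α hα hd
      rw [Phi_cube hB hk hk6 hkB] at hα ⊢
      rw [h.1.2 α (left_ne_zero_of_mul hα) ((dvd_mul_right _ _).trans hd),
        jac_one_of ((dvd_mul_left _ _).trans hd)]
      simp
  · intro F' hF'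
    have h1 : (k : O) ∣ F' := by
      refine Dvd.dvd.trans ?_ hF'.RS_dvd
      rw [RS_cube hB hk hk6 hkB, Nat.cast_mul]
      exact dvd_mul_left _ _
    obtain ⟨F'', rfl⟩ := h1
    have h2 : F'' ∣ (MS B : O) := by
      have h3 := hF'.1
      rw [hM, Nat.cast_mul, mul_comm ((MS B : ℕ) : O)] at h3
      exact (mul_dvd_mul_iff_left hk0).1 h3
    have h3 : PF B F'' := by
      refine ⟨h2, fun α hα hd => ?_⟩
      obtain ⟨β, hβ1, hβ2⟩ := crt hcop α 1
      have e1 : Phi B β = Phi B α := Phi_congr' B hβ1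
      have e2 : Phi (B * kst k ^ 3) β = Phi B α := by
        rw [Phi_cube hB hk hk6 hkB, e1, jac_one_of hβ2]
        simp
      rw [← e2]
      apply hF'.2
      · rw [e2]; exact hα
      · apply IsCoprime.mul_dvd
        · exact (hcop.of_isCoprime_of_dvd_left h2).symm
        · exact hβ2
        · have e3 : β - 1 = (β - α) + (α - 1) := by ring
          rw [e3]
          exact dvd_add (h2.trans hβ1) hd
    have h4 := h.2 _ h3
    rw [N_mul, N_mul, mul_comm (N (k : O))]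
    exact Nat.mul_le_mul_right _ h4

lemma HT_eq (B : ℤ) [NeZero (MS B)] [Fintype (O ⧸ Ideal.span {((MS B : ℕ) : O)})] (w : O) :
    Gs.HT (MS B) (Gs.pC (Phi B)) w = hatM B (MS B) w := by
  unfold Gs.HT Gs.RSum hatM
  rw [← transform_eq (PhC B) (fun z w => PhC_congr) w]
  apply Finset.sum_congr rfl
  intro q _
  unfold Gs.ee Gs.pC PhC
  push_cast
  rfl

/-- the root numbers of the twists -/
theorem rootTw : RootTw := by
  intro B hB
  obtain ⟨F, hF⟩ : ∃ F, PFm B F := exists_min B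
  obtain ⟨G, hG⟩ := hF.1.1
  have h0 := hF.hk hG
  have i1 : NeZero ((MS B : ℕ) : O) := ⟨h0.nO⟩
  have i2 : NeZero (MS B) := ⟨MS_ne_zero B⟩
  obtain ⟨κ, hκ, hκ2⟩ := h0.feq (fun _ _ => mem_PA) (AS_cast B) (AS_one B)
  refine ⟨κ, 3 * N G, hκ.2.1, by have := Vale.Agent.P006.N_pos h0.G0; omega,
    fun k hk hk6 hkB => ?_⟩
  have hG' : (MS (B * kst k ^ 3) : O) = F * (k : O) * G := by
    rw [MS_cube hB hk hk6 hkB, Nat.cast_mul, hG]; ring
  have h1 := (hF.cube hB hk hk6 hkB).hk hG'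
  have i3 : NeZero ((MS (B * kst k ^ 3) : ℕ) : O) := ⟨h1.nO⟩
  have i4 : NeZero (MS (B * kst k ^ 3)) := ⟨MS_ne_zero _⟩
  have i5 : NeZero (MS B * k) := ⟨Nat.mul_ne_zero (MS_ne_zero B) hk.ne_zero⟩
  obtain ⟨κ', hκ', hκ2'⟩ := h1.feq (fun _ _ => mem_PA) (AS_cast _) (AS_one _)
  have e : κ' = κ * ((jacobiSym (-((3 * N G : ℕ) : ℤ)) k : ℤ) : ℝ) := by
    have e1 : (κ' : ℂ) = κ * ((jacobiSym (-((3 * N G : ℕ) : ℤ)) k : ℤ) : ℂ) := by
      rw [hκ2', hκ2, HT_eq, HT_eq, hatM_cast _ (MS_cube hB hk hk6 hkB),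
        hatM_twist hB hk hk6 hkB, N_star, MS_cube hB hk hk6 hkB]
      have e2 : (-((3 * N G : ℕ) : ℤ)) = (-3) * (N G : ℤ) := by push_cast; ring
      rw [e2, jacobiSym.mul_left]
      have e3 : (k : ℂ) ≠ 0 := by exact_mod_cast hk.ne_zero
      have e4 : (MS B : ℂ) ≠ 0 := by exact_mod_cast MS_ne_zero B
      have e5 : toC G ≠ 0 := by rw [Ne, Vale.Agent.P006.toC_eq_zero]; exact h0.G0
      push_cast
      field_simp
    exact_mod_cast e1
  exact ⟨_, e ▸ hκ'⟩

/-- the functional equation -/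
theorem feqS' : FeqS := by
  intro B hB
  obtain ⟨F, G, h, hR, hfe⟩ := Gs.feqS B
  have : NeZero ((SX.MS B : ℕ) : O) := ⟨h.nO⟩
  obtain ⟨κ, hκ, -⟩ := hfe
  exact ⟨_, κ, hκ⟩

/-- **the parity half of `B`-twists of `y² = x³ + B`** -/
theorem oddHalfS' (hMLS : StMLS) (hEnt : StLent) (hPar : StLparity) {B : ℤ} (hB : B ≠ 0) :
    OddHalf 0 B :=
  oddHalfS rootTw feqS' hMLS hEnt hPar hB

/-- **the modular inequality of the twists of `y² = x³ + B`** -/
theorem modlS' (hMLS : StMLS) {B : ℤ} (hB : B ≠ 0) : Modl 0 B :=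
  modlS Gs.pfS hMLS hB

end SX
end P004G
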