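import Vale.Agent.P004X.P004G.H253.SX3

/-!
# P004G: sextic reciprocity and the coefficients of `y² = x³ + B`
-/

open Finset
open Vale.Agent.P006 (O om N sym Primary isUnit_iff_N N_mul_star N_mul N_pow N_star N_one IsVal
  isVal_sym sym_ne_zero sym_eq_zero sym_mul_left sym_star sym_periodic sym_int sym_neg_left
  sym_neg_right sym_pow_left sym_one_left recip star_intCast)
open P004.QN (qst cop_two cop_mul padicValInt_cop qst_natAbs)

namespace P004G
namespace SX

/-! ### reciprocity -/

lemma jac_qst {p q : ℕ} (hp : Odd p) (hq : Odd q) :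
    jacobiSym (qst q) p = jacobiSym p q := by
  have hq2 := Nat.odd_iff.1 hq
  have hp2 := Nat.odd_iff.1 hp
  unfold qst
  split_ifs with h
  · exact jacobiSym.quadratic_reciprocity_one_mod_four h hp
  · have h3 : q % 4 = 3 := by omega
    rw [jacobiSym.neg _ hp]
    have h4 : p % 4 = 1 ∨ p % 4 = 3 := by omega
    rcases h4 with h4 | h4
    · rw [ZMod.χ₄_nat_one_mod_four h4, one_mul]
      exact jacobiSym.quadratic_reciprocity_one_mod_four' hq h4
    · rw [ZMod.χ₄_nat_three_mod_four h4, jacobiSym.quadratic_reciprocity_three_mod_four h3 h4]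
      ring

lemma sym_nat {q : ℕ} (h3 : q % 3 ≠ 0) {z : O} (hz : Primary z) :
    sym (q : O) z = sym z (q : O) := by
  have h : q % 3 = 1 ∨ q % 3 = 2 := by omega
  rcases h with h | h
  · have h1 : Primary ((q : ℕ) : O) := by
      have : Primary (((q : ℕ) : ℤ) : O) := Vale.Agent.P006.primary_intCast.2 (by omega)
      simpa using this
    exact recip h1 hz
  · have h1 : Primary (-((q : ℕ) : O)) := by
      have := primary_neg h
      simpa using this
    rw [← sym_neg_left, recip h1 hz, sym_neg_right]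

lemma sym_qst (q : ℕ) (z : O) : sym ((qst q : ℤ) : O) z = sym (q : O) z := by
  unfold qst
  split_ifs
  · rw [Int.cast_natCast]
  · rw [Int.cast_neg, Int.cast_natCast, sym_neg_left]

/-- factorisation of the part of `B` prime to `p` -/
lemma cop_gen {B : ℤ} (hB : B ≠ 0) {p : ℕ} (hp : p.Prime) (hp2 : p ≠ 2)
    (hv : 2 ∣ padicValInt p B) :
    cop B p = 2 ^ padicValInt 2 B * ((if cop B 2 % 4 = 1 then 1 else -1) *
      ∏ q ∈ (B.natAbs.primeFactors.erase 2).erase p, qst q ^ padicValInt q B) := by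
  have hp0 : (p : ℤ) ^ padicValInt p B ≠ 0 := pow_ne_zero _ (by exact_mod_cast hp.ne_zero)
  apply mul_left_cancel₀ hp0
  rw [cop_mul]
  have h1 := cop_mul B 2
  push_cast at h1
  have h3 : ∏ q ∈ B.natAbs.primeFactors.erase 2, qst q ^ padicValInt q B =
      (p : ℤ) ^ padicValInt p B *
        ∏ q ∈ (B.natAbs.primeFactors.erase 2).erase p, qst q ^ padicValInt q B := by
    by_cases h4 : p ∈ B.natAbs.primeFactors.erase 2
    · rw [← mul_prod_erase _ _ h4]
      congr 1
      obtain ⟨k, hk⟩ := hv
      unfold qst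
      rw [hk, pow_mul, pow_mul]
      congr 1
      split_ifs <;> ring
    · rw [erase_eq_of_notMem h4]
      have h5 : padicValInt p B = 0 := by
        rw [mem_erase, Nat.mem_primeFactors] at h4
        apply padicValNat.eq_zero_of_not_dvd
        intro h5
        exact h4 ⟨hp2, hp, h5, Int.natAbs_ne_zero.2 hB⟩
      rw [h5, pow_zero, one_mul]
  have h5 := cop_two hB
  rw [h3] at h5
  have h6 := congrArg (fun x : ℤ => (2 : ℤ) ^ padicValInt 2 B * x) h5
  rw [h1] at h6
  linear_combination h6

/-- the symbol of an integer at the primary prime `π` of norm `p` -/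
noncomputable def ps (p : ℕ) (π : O) (a : ℤ) : O :=
  ((jacobiSym a p : ℤ) : O) * sym (a : O) π

lemma ps_mul (p : ℕ) (π : O) (a b : ℤ) : ps p π (a * b) = ps p π a * ps p π b := by
  unfold ps
  rw [jacobiSym.mul_left]
  push_cast
  rw [sym_mul_left]
  ring

lemma ps_one (p : ℕ) (π : O) : ps p π 1 = 1 := by
  unfold ps
  rw [jacobiSym.one_left]
  push_cast
  rw [sym_one_left, one_mul]

lemma ps_pow (p : ℕ) (π : O) (a : ℤ) (n : ℕ) : ps p π (a ^ n) = ps p π a ^ n := by
  induction n with
  | zero => rw [pow_zero, pow_zero, ps_one]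
  | succ n ih => rw [pow_succ, ps_mul, ih, pow_succ]

lemma ps_prod (p : ℕ) (π : O) (s : Finset ℕ) (f : ℕ → ℤ) :
    ps p π (∏ q ∈ s, f q) = ∏ q ∈ s, ps p π (f q) := by
  classical
  induction s using Finset.induction_on with
  | empty => rw [prod_empty, prod_empty, ps_one]
  | insert a s ha ih => rw [prod_insert ha, prod_insert ha, ps_mul, ih]

section recip

variable {p : ℕ} (hp : p.Prime) (hp2 : p ≠ 2) {π : O} (hN : N π = p) (hP : Primary π)

include hN hP in
lemma p_mod : p % 3 = 1 := by rw [← hN]; exact hP.N_mod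

include hp hp2 hN hP in
lemma ps_qst {q : ℕ} (hq : q.Prime) (hq5 : 5 ≤ q) : ps p π (qst q) = sx q π := by
  unfold ps sx
  have h3 : q % 3 ≠ 0 := by
    intro h
    have : 3 ∣ q := Nat.dvd_of_mod_eq_zero h
    rw [Nat.prime_dvd_prime_iff_eq Nat.prime_three hq] at this
    omega
  rw [jac_qst (hp.odd_of_ne_two hp2) (hq.odd_of_ne_two (by omega)), sym_qst, sym_nat h3 hP, hN]

include hp hp2 hN hP in
lemma ps_three : ps p π (qst 3) = sym 3 π := by
  unfold ps
  rw [jac_qst (hp.odd_of_ne_two hp2) (by decide), sym_qst]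
  have h1 : jacobiSym (p : ℤ) 3 = 1 := by
    have h2 : jacobiSym (p : ℤ) 3 = jacobiSym 1 3 := by
      apply jacobiSym.mod_left'
      have := p_mod hN hP
      omega
    rw [h2, jacobiSym.one_left]
  rw [h1]
  push_cast
  rw [one_mul]

include hp hp2 hN hP in
/-- sextic reciprocity -/
theorem ps_cop {B : ℤ} (hB : B ≠ 0) (hv : 6 ∣ padicValInt p B) :
    sym 4 π * ps p π (cop B p) = X B π := by
  classical
  have hodd : Odd p := hp.odd_of_ne_two hp2
  have hp3 : p ≠ 3 := by
    have := p_mod hN hP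
    rintro rfl
    omega
  rw [cop_gen hB hp hp2 (Dvd.dvd.trans (by norm_num) hv), ps_mul, ps_mul, ps_pow, ps_prod]
  have h4 : sym (4 : O) π = sym π 2 ^ 2 := by
    have h1 : (4 : O) = ((2 : ℕ) : O) ^ 2 := by norm_num
    rw [h1, sym_pow_left, sym_nat (by norm_num) hP]
    norm_num
  have h2 : ps p π 2 = ((ZMod.χ₈ (N π : ZMod 8) : ℤ) : O) * sym π 2 := by
    unfold ps
    rw [jacobiSym.at_two hodd, hN]
    congr 1
    have h1 : ((2 : ℤ) : O) = ((2 : ℕ) : O) := by norm_num
    rw [h1, sym_nat (by norm_num) hP]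
    norm_num
  have he : ps p π (if cop B 2 % 4 = 1 then 1 else -1) =
      ((ZMod.χ₄ (N π : ZMod 4) : ℤ) : O) ^ e4 B := by
    unfold e4
    split_ifs
    · rw [ps_one, pow_zero]
    · unfold ps
      rw [jacobiSym.at_neg_one hodd, hN, pow_one]
      push_cast
      rw [sym_neg_left, sym_one_left, mul_one]
  set F : ℕ → O := fun q => if q = 3 then sym 3 π else sx q π with hF
  have hps : ∀ q ∈ (B.natAbs.primeFactors.erase 2).erase p,
      ps p π (qst q ^ padicValInt q B) = F q ^ padicValInt q B := by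
    intro q hq
    rw [mem_erase, mem_erase, Nat.mem_primeFactors] at hq
    rw [ps_pow]
    congr 1
    rw [hF]
    simp only
    split_ifs with h
    · rw [h]; exact ps_three hp hp2 hN hP
    · apply ps_qst hp hp2 hN hP hq.2.2.1
      have h5 := hq.2.2.1.two_le
      have h6 := hq.2.1
      have h7 : q ≠ 4 := by rintro rfl; exact absurd hq.2.2.1 (by norm_num)
      omega
  rw [prod_congr rfl hps]
  have hprod : ∏ q ∈ (B.natAbs.primeFactors.erase 2).erase p, F q ^ padicValInt q B =
      sym 3 π ^ padicValInt 3 B * ∏ q ∈ SS B, sx q π ^ padicValInt q B := by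
    have e1 : ∏ q ∈ (B.natAbs.primeFactors.erase 2).erase p, F q ^ padicValInt q B =
        F 3 ^ padicValInt 3 B *
          ∏ q ∈ ((B.natAbs.primeFactors.erase 2).erase p).erase 3, F q ^ padicValInt q B := by
      by_cases h : 3 ∈ (B.natAbs.primeFactors.erase 2).erase p
      · rw [mul_prod_erase _ (fun q => F q ^ padicValInt q B) h]
      · rw [erase_eq_of_notMem h]
        have h5 : padicValInt 3 B = 0 := by
          rw [mem_erase, mem_erase, Nat.mem_primeFactors] at h
          apply padicValNat.eq_zero_of_not_dvd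
          intro h5
          exact h ⟨Ne.symm hp3, by norm_num, Nat.prime_three, h5, Int.natAbs_ne_zero.2 hB⟩
        rw [h5, pow_zero, one_mul]
    rw [e1]
    congr 1
    symm
    have e2 : ∏ q ∈ SS B, sx q π ^ padicValInt q B = ∏ q ∈ SS B, F q ^ padicValInt q B := by
      apply prod_congr rfl
      intro q hq
      rw [hF]
      simp only
      rw [if_neg (by have := (mem_SS hq).2.1; omega)]
    rw [e2]
    apply prod_subset
    · intro q hq
      have h1 := mem_SS hq
      rw [mem_erase, mem_erase, mem_erase]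
      refine ⟨by omega, ?_, by omega, ?_⟩
      · rintro rfl; exact h1.2.2 hv
      · unfold SS at hq
        exact (mem_filter.1 hq).1
    · intro q hq hq2
      rw [mem_erase, mem_erase, mem_erase] at hq
      have hqp := Nat.mem_primeFactors.1 hq.2.2.2
      have h5 := hqp.1.two_le
      have h7 : q ≠ 4 := by rintro rfl; exact absurd hqp.1 (by norm_num)
      have h1 : 6 ∣ padicValInt q B := by
        by_contra h
        apply hq2
        unfold SS
        rw [mem_filter]
        refine ⟨hq.2.2.2, ?_, h⟩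
        have h8 := hq.1
        have h9 := hq.2.2.1
        omega
      obtain ⟨k, hk⟩ := h1
      have h8 : F q = sx q π := by
        rw [hF]
        simp only
        rw [if_neg hq.1]
      have h9 : sx q π ≠ 0 := by
        intro h
        rw [sx_eq_zero_iff hqp.1, hN] at h
        exact hq.2.1 ((Nat.prime_dvd_prime_iff_eq hqp.1 hp).1 h)
      rw [hk, pow_mul, h8, (sx_isU q π).pow_six h9, one_pow]
  rw [hprod]
  unfold X T2
  rw [h2, he, h4]
  split_ifs with hg
  · obtain ⟨hg1, hg2⟩ := hg
    have e5 : e4 B = 0 := by unfold e4; rw [if_pos hg2]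
    obtain ⟨k, hk⟩ : ∃ k, padicValInt 2 B + 2 = 6 * k := ⟨(padicValInt 2 B + 2) / 6, by omega⟩
    obtain ⟨l, hl⟩ : ∃ l, padicValInt 2 B = 2 * l := ⟨padicValInt 2 B / 2, by omega⟩
    have h8 : ((ZMod.χ₈ (N π : ZMod 8) : ℤ) : O) ^ 2 = 1 := by
      have h9 : ZMod.χ₈ (N π : ZMod 8) ≠ 0 := by
        rw [ZMod.χ₈_nat_eq_if_mod_eight, hN]
        have := Nat.odd_iff.1 hodd
        split_ifs <;> omega
      rcases chi8_cases (N π : ZMod 8) with h | h | h
      · exact absurd h h9
      · rw [h]; norm_num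
      · rw [h]; norm_num
    have h9 : sym π 2 ^ 6 = 1 := by
      apply (isU_sym _ _).pow_six
      rw [sym_ne_zero]
      apply coprime_of_N
      have : N (2 : O) = 2 ^ 2 := by decide
      rw [this, hN]
      exact (Nat.coprime_two_right.2 hodd).pow_right 2
    have e6 : ((ZMod.χ₈ (N π : ZMod 8) : ℤ) : O) ^ padicValInt 2 B = 1 := by
      rw [hl, pow_mul, h8, one_pow]
    have e7 : sym π 2 ^ 2 * sym π 2 ^ padicValInt 2 B = 1 := by
      rw [← pow_add, add_comm, hk, pow_mul, h9, one_pow]
    rw [e5, pow_zero, one_mul, mul_pow, e6, one_mul, one_mul]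
    linear_combination (sym 3 π ^ padicValInt 3 B * ∏ q ∈ SS B, sx q π ^ padicValInt q B) * e7
  · rw [mul_pow]
    ring

end recip

/-! ### the trace of Frobenius -/

theorem trS_X {p : ℕ} (hp : p.Prime) (hp2 : p ≠ 2) {π : O} (hN : N π = p) (hP : Primary π)
    {B : ℤ} (hB : B ≠ 0) (hv : 6 ∣ padicValInt p B) :
    ((trS (cop B p) p : ℤ) : O) = X B π * π + star (X B π * π) := by
  have : Fact p.Prime := ⟨hp⟩
  have hπ : Prime π := Vale.Agent.P006.prime_of_N_prime (by rw [hN]; exact hp)
  rw [trS_prime hπ hP hp hp2 hN (padicValInt_cop hB hp)]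
  have h1 : ((quadraticChar (ZMod p) ((cop B p : ℤ) : ZMod p) : ℤ) : O) *
      sym (4 * ((cop B p : ℤ) : O)) π = X B π := by
    rw [← ps_cop hp hp2 hN hP hB hv, sym_mul_left]
    unfold ps
    have h2 : jacobiSym (cop B p) p = quadraticChar (ZMod p) ((cop B p : ℤ) : ZMod p) := by
      rw [← jacobiSym.legendreSym.to_jacobiSym]
      rfl
    rw [h2]
    ring
  rw [h1]

/-! ### the completely multiplicative function on all Eisenstein integers -/

open Classical in
/-- the unit `u` with `u * z` primary (`0` for `z` divisible by `1 - ω`) -/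
noncomputable def pu (z : O) : O :=
  if h : ¬ Vale.Agent.P006.lam ∣ z then (Vale.Agent.P006.exists_unit_mul_primary h).choose else 0

lemma pu_spec {z : O} (h : ¬ Vale.Agent.P006.lam ∣ z) : IsUnit (pu z) ∧ Primary (pu z * z) := by
  unfold pu
  rw [dif_pos h]
  exact (Vale.Agent.P006.exists_unit_mul_primary h).choose_spec

lemma pu_zero {z : O} (h : Vale.Agent.P006.lam ∣ z) : pu z = 0 := by
  unfold pu
  rw [dif_neg (not_not.2 h)]

lemma pu_isU (z : O) : IsU (pu z) := by
  by_cases h : Vale.Agent.P006.lam ∣ z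
  · rw [pu_zero h]; exact isU_zero
  · exact Or.inr (pu_spec h).1

lemma not_lam_of {z u : O} (h : Primary (u * z)) : ¬ Vale.Agent.P006.lam ∣ z :=
  fun h1 => h.not_lam_dvd (h1.trans (dvd_mul_left _ _))

/-- uniqueness of the unit -/
lemma pu_eq {z u : O} (hu : IsUnit u) (h : Primary (u * z)) : pu z = u := by
  obtain ⟨h1, h2⟩ := pu_spec (not_lam_of h)
  have h3 : (u * z) * (pu z * star u) = pu z * z := by
    have := unit_mul_star hu
    linear_combination (pu z * z) * this
  have h5 : Primary (pu z * star u) := Primary.of_mul h (by rw [h3]; exact h2)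
  have h6 := h5.eq_one (h1.mul (isUnit_star hu))
  have h7 := unit_mul_star hu
  linear_combination u * h6 - (pu z) * h7

lemma pu_prim {z : O} (h : Primary z) : pu z = 1 :=
  pu_eq isUnit_one (by rw [one_mul]; exact h)

lemma pu_mul (z w : O) : pu (z * w) = pu z * pu w := by
  by_cases hz : Vale.Agent.P006.lam ∣ z
  · rw [pu_zero hz, zero_mul, pu_zero (hz.trans (dvd_mul_right _ _))]
  · by_cases hw : Vale.Agent.P006.lam ∣ w
    · rw [pu_zero hw, mul_zero, pu_zero (hw.trans (dvd_mul_left _ _))]
    · obtain ⟨h1, h2⟩ := pu_spec hz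
      obtain ⟨h3, h4⟩ := pu_spec hw
      apply pu_eq (h1.mul h3)
      have := h2.mul h4
      rwa [show pu z * z * (pu w * w) = pu z * pu w * (z * w) by ring] at this

lemma lam_dvd_star {z : O} (h : Vale.Agent.P006.lam ∣ z) : Vale.Agent.P006.lam ∣ star z := by
  rw [← Vale.Agent.P006.star_dvd_iff]
  exact Dvd.dvd.trans (by decide) h

lemma pu_star (z : O) : pu (star z) = star (pu z) := by
  by_cases hz : Vale.Agent.P006.lam ∣ z
  · rw [pu_zero hz, pu_zero (lam_dvd_star hz), star_zero]
  · obtain ⟨h1, h2⟩ := pu_spec hz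
    apply pu_eq (isUnit_star h1)
    rw [← star_mul']; exact h2.star

lemma prim_congr {z w : O} (h : (3 : O) ∣ z - w) (hz : Primary z) : Primary w := by
  unfold Primary at *
  have : w - 1 = (z - 1) - (z - w) := by ring
  rw [this]
  exact dvd_sub hz h

lemma pu_congr {z w : O} (h : (3 : O) ∣ z - w) : pu z = pu w := by
  by_cases hz : Vale.Agent.P006.lam ∣ z
  · have hw : Vale.Agent.P006.lam ∣ w := by
      have : w = z - (z - w) := by ring
      rw [this]
      exact dvd_sub hz (Vale.Agent.P006.lam_dvd_three.trans h)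
    rw [pu_zero hz, pu_zero hw]
  · obtain ⟨h1, h2⟩ := pu_spec hz
    symm
    apply pu_eq h1
    apply prim_congr _ h2
    rw [← mul_sub]
    exact Dvd.dvd.mul_left h _

/-- the finite part of the Hecke character of `y² = x³ + B`: a completely multiplicative
function on the Eisenstein integers whose values are zero or sixth roots of unity -/
noncomputable def Phi (B : ℤ) (z : O) : O := pu z * X B (pu z * z)

theorem Phi_isU (B : ℤ) (z : O) : IsU (Phi B z) := (pu_isU z).mul (X_isU B _)

theorem Phi_val (B : ℤ) (z : O) : Phi B z = 0 ∨ Phi B z * star (Phi B z) = 1 := by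
  by_cases h : Phi B z = 0
  · exact Or.inl h
  · exact Or.inr ((Phi_isU B z).mul_star h)

lemma Phi_prim (B : ℤ) {z : O} (h : Primary z) : Phi B z = X B z := by
  unfold Phi; rw [pu_prim h, one_mul, one_mul]

theorem Phi_mul (B : ℤ) (z w : O) : Phi B (z * w) = Phi B z * Phi B w := by
  unfold Phi
  by_cases hz : Vale.Agent.P006.lam ∣ z
  · rw [pu_mul, pu_zero hz]; simp
  · by_cases hw : Vale.Agent.P006.lam ∣ w
    · rw [pu_mul, pu_zero hw]; simp
    · obtain ⟨h1, h2⟩ := pu_spec hz
      obtain ⟨h3, h4⟩ := pu_spec hw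
      rw [pu_mul, show pu z * pu w * (z * w) = (pu z * z) * (pu w * w) by ring,
        X_mul B h2.ne_zero h4.ne_zero]
      ring

lemma X_one (B : ℤ) : X B 1 = 1 := by
  have h1 := X_int B (n := 1) isCoprime_one_left (by simp)
  rw [Int.cast_one] at h1
  exact h1

theorem Phi_one (B : ℤ) : Phi B 1 = 1 := by
  rw [Phi_prim B Vale.Agent.P006.primary_one, X_one]

theorem Phi_unit (B : ℤ) {u : O} (hu : IsUnit u) : Phi B u = star u := by
  unfold Phi
  have h0 : star u * u = 1 := by rw [mul_comm]; exact unit_mul_star hu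
  have h1 : pu u = star u := by
    apply pu_eq (isUnit_star hu)
    rw [h0]; exact Vale.Agent.P006.primary_one
  rw [h1, h0, X_one, mul_one]

theorem Phi_star (B : ℤ) (z : O) : Phi B (star z) = star (Phi B z) := by
  unfold Phi
  rw [pu_star, ← star_mul' (pu z) z, X_star, star_mul' (pu z)]

theorem Phi_congr (B : ℤ) {z w : O} (h : ((Fm B : ℕ) : O) ∣ z - w) : Phi B z = Phi B w := by
  have h3 : (3 : O) ∣ z - w := by
    have := dvd_Fm (n := 3) (by unfold Fm; exact Dvd.dvd.mul_right (by norm_num) _) h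
    simpa using this
  have h5 := pu_congr h3
  unfold Phi
  rw [← h5]
  by_cases hz : Vale.Agent.P006.lam ∣ z
  · rw [pu_zero hz, zero_mul, zero_mul]
  · rw [X_congr B (w := pu z * w) (pu_spec hz).2]
    rw [← mul_sub]
    exact Dvd.dvd.mul_left h _

/-- the product of the bad primes -/
noncomputable def bad (B : ℤ) : ℕ := 3 * (b2 B * RS B)

theorem Phi_ne_zero_iff (B : ℤ) (z : O) : Phi B z ≠ 0 ↔ (N z).Coprime (bad B) := by
  unfold Phi bad
  rw [mul_ne_zero_iff, Nat.coprime_mul_iff_right]
  by_cases hz : Vale.Agent.P006.lam ∣ z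
  · rw [pu_zero hz]
    have h1 := Vale.Agent.P006.N_dvd_N hz
    rw [Vale.Agent.P006.N_lam] at h1
    have h2 : ¬ (N z).Coprime 3 := by
      intro h
      exact absurd (Nat.eq_one_of_dvd_coprimes h h1 dvd_rfl) (by norm_num)
    tauto
  · obtain ⟨h1, h2⟩ := pu_spec hz
    have h3 : pu z ≠ 0 := h1.ne_zero
    have h4 : (N z).Coprime 3 := by
      have := Vale.Agent.P006.N_mod_of_not_lam_dvd hz
      rw [Nat.coprime_comm, Nat.Prime.coprime_iff_not_dvd Nat.prime_three]
      omega
    rw [X_ne_zero_iff B h2, N_mul, isUnit_iff_N.1 h1, one_mul]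
    tauto

theorem Phi_int (B : ℤ) {n : ℤ} (h3 : n % 3 = 1) (h : n.natAbs.Coprime (b2 B * RS B)) :
    Phi B (n : O) = 1 := by
  rw [Phi_prim B (Vale.Agent.P006.primary_intCast.2 h3), X_int B _ h]
  refine ⟨1, -(n / 3), ?_⟩
  omega

/-! ### the coefficients -/

/-- the rational integer with the same real part -/
noncomputable def AS (B : ℤ) (n : ℕ) : ℤ := (∑ z ∈ PA n, Phi B z * z).re

theorem AS_cast (B : ℤ) (n : ℕ) : ((AS B n : ℤ) : O) = ∑ z ∈ PA n, Phi B z * z := by
  have h0 : star (∑ z ∈ PA n, Phi B z * z) = ∑ z ∈ PA n, Phi B z * z := by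
    rw [star_sum]
    refine Finset.sum_nbij' star star (fun z hz => star_mem_PA hz) (fun z hz => star_mem_PA hz)
      (fun z _ => star_star z) (fun z _ => star_star z) ?_
    intro z _
    rw [star_mul', Phi_star]
  unfold AS
  set S := ∑ z ∈ PA n, Phi B z * z
  have h1 := congrArg QuadraticAlgebra.im h0
  have h2 : S.im = 0 := by
    have h3 : (star S).im = -S.im := by simp
    rw [h3] at h1
    omega
  apply QuadraticAlgebra.ext
  · simp
  · rw [h2]; simp

end SX
end P004G
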