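import Vale.Agent.P004X.P004G.H253.SX4

/-!
# P004G: the local data of `y² = x³ + B`
-/

open Finset
open Vale.Agent.P006 (O om N sym Primary isUnit_iff_N N_mul_star N_mul N_pow N_star N_one)

namespace P004G
namespace SX

lemma AS_mod (B : ℤ) {n : ℕ} (hn : n % 3 ≠ 1) : AS B n = 0 := by
  unfold AS
  rw [PA_mod hn, sum_empty]; rfl

lemma intCast_inj {a b : ℤ} (h : (a : O) = (b : O)) : a = b := by
  have := congrArg QuadraticAlgebra.re h
  simpa using this

lemma AS_one (B : ℤ) : AS B 1 = 1 := by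
  apply intCast_inj
  rw [AS_cast, PA_one, sum_singleton, Phi_one]
  simp

lemma AS_mul (B : ℤ) {m n : ℕ} (h : Nat.Coprime m n) : AS B (m * n) = AS B m * AS B n := by
  apply intCast_inj
  push_cast
  rw [AS_cast, AS_cast, AS_cast, Finset.sum_mul_sum, ← Finset.sum_product']
  symm
  apply Finset.sum_nbij (fun p : O × O => p.1 * p.2)
    (fun p hp => maps_mul hp) (inj_mul h) (surj_mul h)
  intro p _
  rw [Phi_mul]; ring

lemma Phi_pow (B : ℤ) (z : O) (n : ℕ) : Phi B (z ^ n) = Phi B z ^ n := by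
  induction n with
  | zero => rw [pow_zero, pow_zero, Phi_one]
  | succ n ih => rw [pow_succ, Phi_mul, ih, pow_succ]

lemma Phi_mul_star (B : ℤ) {z : O} (h : Phi B z ≠ 0) : Phi B z * star (Phi B z) = 1 :=
  (Phi_isU B z).mul_star h

/-- primes not dividing `RS` -/
lemma prime_coprime_RS {B : ℤ} {p : ℕ} (hp : p.Prime) (hv : p < 5 ∨ 6 ∣ padicValInt p B) :
    p.Coprime (RS B) := by
  rw [RS_eq, Nat.coprime_prod_right_iff]
  intro q hq
  have h1 := mem_SS hq
  rw [Nat.coprime_primes hp h1.1]
  rintro rfl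
  rcases hv with hv | hv
  · omega
  · exact h1.2.2 hv

lemma b2_cases (B : ℤ) : b2 B = 1 ∨ b2 B = 2 := by
  unfold b2; split_ifs <;> simp

lemma coprime_b2 {p : ℕ} (hp : p.Prime) (hp2 : p ≠ 2) (B : ℤ) : p.Coprime (b2 B) := by
  rcases b2_cases B with h | h <;> rw [h]
  · exact Nat.coprime_one_right p
  · exact Nat.coprime_two_right.2 (hp.odd_of_ne_two hp2)

lemma prime_coprime {B : ℤ} {p : ℕ} (hp : p.Prime) (hp2 : p ≠ 2)
    (hv : p < 5 ∨ 6 ∣ padicValInt p B) : p.Coprime (b2 B * RS B) :=
  Nat.coprime_mul_iff_right.2 ⟨coprime_b2 hp hp2 B, prime_coprime_RS hp hv⟩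

lemma Phi_pi_ne {B : ℤ} {p : ℕ} (hp : p.Prime) (hp2 : p ≠ 2) (hv : 6 ∣ padicValInt p B)
    {ϖ : O} (hN : N ϖ = p) (hP : Primary ϖ) : Phi B ϖ ≠ 0 := by
  rw [Phi_ne_zero_iff, hN]
  unfold bad
  rw [Nat.coprime_mul_iff_right]
  refine ⟨?_, prime_coprime hp hp2 (Or.inr hv)⟩
  rw [Nat.coprime_primes hp Nat.prime_three]
  rintro rfl
  have := hP.N_mod
  omega

lemma AS_good_one (B : ℤ) {p : ℕ} (hp : p.Prime) (hp2 : p ≠ 2) (hv : 6 ∣ padicValInt p B)
    {ϖ : O} (hN : N ϖ = p) (hP : Primary ϖ) :
    ((AS B p : ℤ) : O) = Phi B ϖ * ϖ + star (Phi B ϖ * ϖ) ∧ GoodAt (AS B) p := by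
  classical
  have hne := Phi_pi_ne (B := B) hp hp2 hv hN hP
  set x := Phi B ϖ * ϖ with hx
  have hxs : star x = Phi B (star ϖ) * star ϖ := by rw [hx, star_mul', Phi_star]
  have hn : x * star x = (p : O) := by
    rw [← hN, N_mul_star, hx, star_mul']
    have := Phi_mul_star B hne
    linear_combination (ϖ * star ϖ) * this
  have S1 : ∀ k, ((AS B (p ^ k) : ℤ) : O) = ∑ i ∈ range (k + 1), x ^ i * star x ^ (k - i) := by
    intro k
    rw [AS_cast, PA_pow hp hN hP, Finset.sum_image (injOn_pow hp hN hP k)]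
    apply sum_congr rfl
    intro i _
    rw [Phi_mul, Phi_pow, Phi_pow, hxs, hx, mul_pow, mul_pow]
    ring
  have S : ∀ k, ((AS B (p ^ k) : ℤ) : O) * (x - star x) = x ^ (k + 1) - star x ^ (k + 1) := by
    intro k
    rw [S1, ← geom_sum₂_mul]
    rfl
  have e1 : ((AS B p : ℤ) : O) = x + star x := by
    have := S1 1
    rw [pow_one] at this
    rw [this, sum_range_succ, sum_range_one]
    simp
    ring
  refine ⟨e1, fun k => ?_⟩
  have hd : x - star x ≠ 0 := by
    intro h
    have h1 : x = star x := sub_eq_zero.1 h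
    have h6 : N x = p := by
      have h7 := N_mul_star x
      rw [hn] at h7
      exact_mod_cast h7
    exact Vale.Agent.P006.ne_star_of_N_prime hp h6 h1
  apply intCast_inj
  apply mul_right_cancel₀ hd
  rw [S]
  push_cast
  rw [sub_mul, mul_assoc, S, mul_assoc, S, e1, ← hn]
  ring

lemma AS_good_two (B : ℤ) {p : ℕ} (hp : p.Prime) (h3 : p % 3 = 2)
    (hc : p.Coprime (b2 B * RS B)) : AS B p = 0 ∧ GoodAt (AS B) p := by
  have h0 : AS B p = 0 := AS_mod B (by omega)
  refine ⟨h0, fun k => ?_⟩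
  have hΦ : Phi B ((-(p : ℤ) : ℤ) : O) = 1 := by
    apply Phi_int B (by omega)
    rw [Int.natAbs_neg, Int.natAbs_natCast]
    exact hc
  rw [h0, zero_mul, zero_sub]
  apply intCast_inj
  rw [AS_cast, PA_two hp h3, Finset.sum_map]
  push_cast
  rw [AS_cast, Finset.mul_sum, ← Finset.sum_neg_distrib]
  apply Finset.sum_congr rfl
  intro z _
  have h5 : Phi B (((-(p : ℤ) : ℤ) : O) * z) = Phi B z := by
    rw [Phi_mul, hΦ, one_mul]
  push_cast at h5
  simp only [Function.Embedding.coeFn_mk]
  rw [h5]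
  ring

lemma AS_three (B : ℤ) : TrivAt (AS B) 3 := by
  intro k
  apply AS_mod
  rw [pow_succ]; omega

lemma triv_of {B : ℤ} {p : ℕ} (hp : p.Prime) (hd : p ∣ bad B) : TrivAt (AS B) p := by
  intro k
  apply intCast_inj
  rw [AS_cast, Int.cast_zero]
  apply sum_eq_zero
  intro z hz
  rw [mem_PA] at hz
  have h1 : Phi B z = 0 := by
    by_contra h
    rw [← Ne, Phi_ne_zero_iff, hz.1] at h
    exact hp.one_lt.ne' (Nat.eq_one_of_dvd_coprimes h (dvd_pow_self p (by omega)) hd)
  rw [h1, zero_mul]

lemma dvd_bad {B : ℤ} (hB : B ≠ 0) {p : ℕ} (hp : p.Prime) (hp5 : 5 ≤ p)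
    (hv : ¬ 6 ∣ padicValInt p B) : p ∣ bad B := by
  have h3 : p ∈ SS B := by
    unfold SS
    rw [mem_filter, Nat.mem_primeFactors]
    have h5 : padicValInt p B ≠ 0 := fun h => hv (by rw [h]; exact dvd_zero _)
    have h6 : p ∣ B.natAbs := by
      by_contra h7
      exact h5 (padicValNat.eq_zero_of_not_dvd h7)
    exact ⟨⟨hp, h6, Int.natAbs_ne_zero.2 hB⟩, hp5, hv⟩
  unfold bad
  rw [RS_eq]
  exact Dvd.dvd.mul_left (Dvd.dvd.mul_left (dvd_prod_of_mem _ h3) _) _

lemma loc_triv {A : ℕ → ℤ} (h1 : A 1 = 1) {p : ℕ} (h : TrivAt A p) :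
    (∀ k : ℕ, A (p ^ (k + 1)) = A p * A (p ^ k)) ∧ |A p| ≤ 1 := by
  have h0 := h 0
  rw [zero_add, pow_one] at h0
  refine ⟨fun k => ?_, ?_⟩
  · rw [h k, h0, zero_mul]
  · rw [h0]; norm_num

/-- the local data of `y² = x³ + B` -/
theorem coefS {B : ℤ} (hB : B ≠ 0) : CoefS B (AS B) where
  ld :=
    { zero := AS_mod B (by norm_num)
      one := AS_one B
      mul := fun m n h => AS_mul B h
      loc := fun p hp => by
        by_cases hp3 : p = 3
        · right
          rw [hp3]
          exact loc_triv (AS_one B) (AS_three B)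
        by_cases hb : p ∣ bad B
        · right
          exact loc_triv (AS_one B) (triv_of hp hb)
        · left
          have hc : p.Coprime (b2 B * RS B) := by
            rw [Nat.Prime.coprime_iff_not_dvd hp]
            intro h
            apply hb
            unfold bad
            exact Dvd.dvd.mul_left h 3
          have hm : p % 3 = 1 ∨ p % 3 = 2 := by
            have : ¬ 3 ∣ p := by
              rw [Nat.prime_dvd_prime_iff_eq Nat.prime_three hp]
              exact fun h => hp3 h.symm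
            omega
          rcases hm with hm | hm
          · obtain ⟨ϖ, hN, hP⟩ := exists_pi hp hm
            have hp2 : p ≠ 2 := by rintro rfl; omega
            have hp5 : 5 ≤ p := by
              have := hp.two_le
              have h4 : p ≠ 4 := by rintro rfl; exact absurd hp (by norm_num)
              omega
            have hv : 6 ∣ padicValInt p B := by
              by_contra h
              exact hb (dvd_bad hB hp hp5 h)
            have h5 := AS_good_one B hp hp2 hv hN hP
            refine ⟨h5.2, ?_⟩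
            have hne := Phi_pi_ne (B := B) hp hp2 hv hN hP
            have h6 := congrArg QuadraticAlgebra.re h5.1
            have h7 : N (Phi B ϖ * ϖ) = p := by
              rw [N_mul, hN]
              rcases Phi_isU B ϖ with h | h
              · exact absurd h hne
              · rw [isUnit_iff_N.1 h, one_mul]
            have h8 := Vale.Agent.P006.N_cast_int' (Phi B ϖ * ϖ)
            rw [h7] at h8
            have h9 : AS B p = 2 * (Phi B ϖ * ϖ).re - (Phi B ϖ * ϖ).im := by
              rw [← Vale.Agent.P006.trO_eq] at h5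
              exact intCast_inj h5.1
            rw [h9]
            nlinarith [sq_nonneg (Phi B ϖ * ϖ).im]
          · have h5 := AS_good_two B hp hm hc
            refine ⟨h5.2, ?_⟩
            rw [h5.1]
            positivity }
  three := AS_three B
  bad := fun p hp hp5 hv => triv_of hp (dvd_bad hB hp hp5 hv)
  good := fun p hp hp5 hv => by
    have hp2 : p ≠ 2 := by omega
    have hm : p % 3 = 1 ∨ p % 3 = 2 := by
      have : ¬ 3 ∣ p := by
        rw [Nat.prime_dvd_prime_iff_eq Nat.prime_three hp]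
        omega
      omega
    rcases hm with hm | hm
    · obtain ⟨ϖ, hN, hP⟩ := exists_pi hp hm
      have h5 := AS_good_one B hp hp2 hv hN hP
      refine ⟨h5.2, ?_⟩
      have h6 := trS_X hp hp2 hN hP hB hv
      rw [← Phi_prim B hP, ← h5.1] at h6
      exact (intCast_inj h6).symm
    · have : Fact p.Prime := ⟨hp⟩
      have h5 := AS_good_two B hp hm (prime_coprime hp hp2 (Or.inr hv))
      exact ⟨h5.2, by rw [h5.1, trS_two hm hp2]⟩
  two_bad := fun h => by
    apply triv_of Nat.prime_two
    have h1 : b2 B = 2 := by unfold b2 good2; rw [if_neg h]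
    unfold bad
    rw [h1]
    exact Dvd.dvd.mul_left (dvd_mul_right _ _) _
  two_good := fun h => by
    have h1 : b2 B = 1 := by unfold b2 good2; rw [if_pos h]
    have h5 := AS_good_two B Nat.prime_two rfl (by
      rw [h1, one_mul]
      exact prime_coprime_RS Nat.prime_two (Or.inl (by norm_num)))
    exact ⟨h5.2, h5.1⟩

end SX
end P004G
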